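import Mathlib

/-!
# GK-18 (`box_near`): the nearest-point map sends the box of a sharp point close to that point

`P` a nearest-point map of `K` (values in `K`, variational inequality, `1`-Lipschitz), `e ∈ K`
with two caps of height `η` with unit normals `ξ₁, ξ₂`; `b` an orthonormal basis with
`b 0 = ξ₁`, `ξ₂ = c • b 0 + σ • b 1` (`c = ⟪ξ₁, ξ₂⟫`, `0 < σ ≤ 1`); `ρη ≤ d0^2` (we assume
`2ρη ≤ d0^2`).  If `x` is in the box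
`⟪b 0, x - e⟫ ∈ [ρ/4, ρ/2]`, `⟪b 1, x - e⟫ ∈ [0, σρ/4]`, `⟪b 2, x - e⟫ ∈ [-d0, d0]`,
then `‖P x - e‖ ≤ 2 d0`.

Proof.  `x₀, x₁, x₂` the three coordinates, `x - e = x₀ • b 0 + x₁ • b 1 + x₂ • b 2`
(`OrthonormalBasis.sum_repr'` / `b.sum_repr`, `Fin.sum_univ_three`).  `v := x₀ • b 0 + x₁ • b 1`.
With `β := x₁/σ ∈ [0, ρ/4]` and `α := x₀ - c β` (`|c| ≤ 1`, so `α ∈ [0, 3ρ/4]`):
`v = α • ξ₁ + β • ξ₂`, `α, β ≥ 0`, `α + β ≤ ρ`.  Let `y := P (e + v) ∈ K`.  Variational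
inequality at `e ∈ K`: `⟪e + v - y, e - y⟫ ≤ 0`, i.e. `‖e - y‖^2 ≤ ⟪v, y - e⟫
= α ⟪ξ₁, y - e⟫ + β ⟪ξ₂, y - e⟫ ≤ (α + β) η ≤ ρ η ≤ d0^2` (`η ≥ 0`).  So `‖P (e + v) - e‖ ≤ d0`,
and `‖P x - P (e + v)‖ ≤ ‖x - (e + v)‖ = ‖x₂ • b 2‖ = |x₂| ≤ d0`.  Triangle inequality.
-/

open Set

namespace Vale.Agent.H5.GenK

variable {E : Type*} [NormedAddCommGroup E] [InnerProductSpace ℝ E] [FiniteDimensional ℝ E]

theorem box_near {K : Set E} {P : E → E} (hPK : ∀ x, P x ∈ K)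
    (hPvar : ∀ x, ∀ y ∈ K, inner ℝ (x - P x) (y - P x) ≤ 0)
    (hPlip : ∀ x y, ‖P x - P y‖ ≤ ‖x - y‖)
    {e ξ₁ ξ₂ : E} {η ρ d0 σ : ℝ} (he : e ∈ K) (hη : 0 ≤ η) (hρ : 0 < ρ) (hd0 : 0 ≤ d0)
    (hd : 2 * ρ * η ≤ d0 ^ 2) (h1 : ‖ξ₁‖ = 1) (h2 : ‖ξ₂‖ = 1)
    (hcap₁ : ∀ y ∈ K, inner ℝ ξ₁ (y - e) ≤ η) (hcap₂ : ∀ y ∈ K, inner ℝ ξ₂ (y - e) ≤ η)
    (b : OrthonormalBasis (Fin 3) ℝ E) (hb0 : b 0 = ξ₁) (hσ : 0 < σ) (hσ1 : σ ≤ 1)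
    (hb1 : ξ₂ = inner ℝ ξ₁ ξ₂ • b 0 + σ • b 1) {x : E}
    (hx0 : inner ℝ (b 0) (x - e) ∈ Icc (ρ / 4) (ρ / 2))
    (hx1 : inner ℝ (b 1) (x - e) ∈ Icc 0 (σ * ρ / 4))
    (hx2 : inner ℝ (b 2) (x - e) ∈ Icc (-d0) d0) :
    ‖P x - e‖ ≤ 2 * d0 := by
  have hsum : x - e = inner ℝ (b 0) (x - e) • b 0 + inner ℝ (b 1) (x - e) • b 1
      + inner ℝ (b 2) (x - e) • b 2 := by
    have h := b.sum_repr' (x - e)
    rw [Fin.sum_univ_three] at h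
    exact h.symm
  generalize inner ℝ (b 0) (x - e) = x₀ at hsum hx0
  generalize inner ℝ (b 1) (x - e) = x₁ at hsum hx1
  generalize inner ℝ (b 2) (x - e) = x₂ at hsum hx2
  have hc1 : |inner ℝ ξ₁ ξ₂| ≤ 1 := by
    have h := abs_real_inner_le_norm ξ₁ ξ₂
    rw [h1, h2] at h
    simpa using h
  generalize inner ℝ ξ₁ ξ₂ = c at hb1 hc1
  obtain ⟨hcl, hcu⟩ := abs_le.mp hc1
  have hβ0 : 0 ≤ x₁ / σ := div_nonneg hx1.1 hσ.le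
  have hβ1 : x₁ / σ ≤ ρ / 4 := by
    rw [div_le_iff₀ hσ]
    nlinarith [hx1.2]
  have hβσ : x₁ / σ * σ = x₁ := by
    field_simp
  generalize x₁ / σ = β at hβ0 hβ1 hβσ
  have hα0 : 0 ≤ x₀ - c * β := by
    have h : c * β ≤ β := by nlinarith
    have h' := hx0.1
    linarith
  have hαβ : (x₀ - c * β) + β ≤ ρ := by
    have h : -(c * β) ≤ β := by nlinarith
    have h' := hx0.2
    linarith
  have hv' : x₀ • b 0 + x₁ • b 1 = (x₀ - c * β) • ξ₁ + β • ξ₂ := by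
    rw [hb1, ← hb0, smul_add, smul_smul, smul_smul, ← add_assoc, ← add_smul, hβσ]
    congr 2
    ring
  generalize x₀ - c * β = α at hα0 hαβ hv'
  have hyK : P (e + (x₀ • b 0 + x₁ • b 1)) ∈ K := hPK _
  have hvar := hPvar (e + (x₀ • b 0 + x₁ • b 1)) e he
  have hxv : x - (e + (x₀ • b 0 + x₁ • b 1)) = x₂ • b 2 := by
    have h : x - (e + (x₀ • b 0 + x₁ • b 1)) = (x - e) - (x₀ • b 0 + x₁ • b 1) := by abel
    rw [h, hsum]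
    abel
  have hlip := hPlip x (e + (x₀ • b 0 + x₁ • b 1))
  rw [hxv] at hlip
  generalize x₀ • b 0 + x₁ • b 1 = v at hv' hyK hvar hlip
  generalize P (e + v) = y at hyK hvar hlip
  have h3 : ‖e - y‖ ^ 2 ≤ inner ℝ v (y - e) := by
    have h : inner ℝ (e + v - y) (e - y) = ‖e - y‖ ^ 2 - inner ℝ v (y - e) := by
      have e1 : e + v - y = (e - y) + v := by abel
      have e2 : y - e = -(e - y) := by abel
      rw [e1, e2, inner_add_left, inner_neg_right, real_inner_self_eq_norm_sq]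
      ring
    rw [h] at hvar
    linarith
  have h4 : inner ℝ v (y - e) ≤ (α + β) * η := by
    rw [hv', inner_add_left, real_inner_smul_left, real_inner_smul_left]
    nlinarith [mul_le_mul_of_nonneg_left (hcap₁ y hyK) hα0,
      mul_le_mul_of_nonneg_left (hcap₂ y hyK) hβ0]
  have h5 : ‖y - e‖ ≤ d0 := by
    rw [norm_sub_rev]
    have h : ‖e - y‖ ^ 2 ≤ d0 ^ 2 := by
      nlinarith [mul_le_mul_of_nonneg_right hαβ hη, mul_nonneg hρ.le hη]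
    exact (abs_le_of_sq_le_sq' h hd0).2
  have h6 : ‖P x - y‖ ≤ d0 := by
    refine hlip.trans ?_
    rw [norm_smul, b.norm_eq_one, mul_one, Real.norm_eq_abs]
    exact abs_le.mpr hx2
  calc ‖P x - e‖ = ‖(P x - y) + (y - e)‖ := by
        congr 1
        abel
    _ ≤ ‖P x - y‖ + ‖y - e‖ := norm_add_le _ _
    _ ≤ 2 * d0 := by linarith

end Vale.Agent.H5.GenK
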