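import Mathlib

/-!
# GK-19 (`box_subset`): the box of a point of `K` lies in the 3-fold homothetic copy of `K`

`K` convex, `closedBall c ρ ⊆ K`, `e ∈ K`, `0 ≤ d0 ≤ ρ`, `0 ≤ σ ≤ 1`, `b` an orthonormal basis.
Every `x` of the box `⟪b 0, x - e⟫ ∈ [ρ/4, ρ/2]`, `⟪b 1, x - e⟫ ∈ [0, σρ/4]`,
`⟪b 2, x - e⟫ ∈ [-d0, d0]` lies in `AffineMap.homothety c 3 '' K`.

Proof.  `‖x - e‖^2 = ∑ i, ⟪b i, x - e⟫^2 ≤ ρ^2/4 + ρ^2/16 + ρ^2 ≤ 4 ρ^2`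
(`OrthonormalBasis.sum_sq_inner_right`/Parseval, `Fin.sum_univ_three`), so `‖x - e‖ ≤ 2ρ`.
`y := c + (1/3) • (x - c) = (1/3) • e + (2/3) • (c + (1/2) • (x - e))`, where
`c + (1/2) • (x - e) ∈ closedBall c ρ ⊆ K`; so `y ∈ K` by convexity and
`AffineMap.homothety c 3 y = c + 3 • (y - c) = x` (`AffineMap.homothety_apply`).
-/

open Set

namespace Vale.Agent.H5.GenK

variable {E : Type*} [NormedAddCommGroup E] [InnerProductSpace ℝ E] [FiniteDimensional ℝ E]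

theorem box_subset {K : Set E} (hKc : Convex ℝ K) {c e : E} {ρ d0 σ : ℝ} (hρ : 0 < ρ)
    (hin : Metric.closedBall c ρ ⊆ K) (he : e ∈ K) (hd0 : 0 ≤ d0) (hd0ρ : d0 ≤ ρ)
    (hσ0 : 0 ≤ σ) (hσ1 : σ ≤ 1) (b : OrthonormalBasis (Fin 3) ℝ E) {x : E}
    (hx0 : inner ℝ (b 0) (x - e) ∈ Icc (ρ / 4) (ρ / 2))
    (hx1 : inner ℝ (b 1) (x - e) ∈ Icc 0 (σ * ρ / 4))
    (hx2 : inner ℝ (b 2) (x - e) ∈ Icc (-d0) d0) :
    x ∈ AffineMap.homothety c (3 : ℝ) '' K := by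
  have hnorm : ‖x - e‖ ^ 2 = ∑ i, (inner ℝ (b i) (x - e)) ^ 2 := by
    rw [← b.sum_sq_norm_inner_right (x - e)]
    refine Finset.sum_congr rfl fun i _ => ?_
    rw [Real.norm_eq_abs, sq_abs]
  rw [Fin.sum_univ_three] at hnorm
  obtain ⟨a0, a1⟩ := hx0
  obtain ⟨b0, b1⟩ := hx1
  obtain ⟨c0, c1⟩ := hx2
  have hσρ : σ * ρ / 4 ≤ ρ / 4 := by nlinarith
  have s0 : (inner ℝ (b 0) (x - e)) ^ 2 ≤ (ρ / 2) ^ 2 := by
    apply sq_le_sq' <;> linarith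
  have s1 : (inner ℝ (b 1) (x - e)) ^ 2 ≤ (ρ / 4) ^ 2 := by
    apply sq_le_sq' <;> linarith
  have s2 : (inner ℝ (b 2) (x - e)) ^ 2 ≤ ρ ^ 2 := by
    apply sq_le_sq' <;> linarith
  have h4 : ‖x - e‖ ^ 2 ≤ (2 * ρ) ^ 2 := by
    rw [hnorm]
    nlinarith
  have h2 : ‖x - e‖ ≤ 2 * ρ := by
    by_contra hcon
    have hlt : 2 * ρ < ‖x - e‖ := not_le.mp hcon
    nlinarith [norm_nonneg (x - e)]
  refine ⟨c + (1 / 3 : ℝ) • (x - c), ?_, ?_⟩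
  · have hz : c + (1 / 2 : ℝ) • (x - e) ∈ K := by
      apply hin
      rw [Metric.mem_closedBall, dist_eq_norm, add_sub_cancel_left, norm_smul, Real.norm_eq_abs,
        abs_of_pos (by norm_num : (0 : ℝ) < 1 / 2)]
      linarith
    have hy : c + (1 / 3 : ℝ) • (x - c)
        = (1 / 3 : ℝ) • e + (2 / 3 : ℝ) • (c + (1 / 2 : ℝ) • (x - e)) := by
      module
    rw [hy]
    exact hKc he hz (by norm_num) (by norm_num) (by norm_num)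
  · rw [AffineMap.homothety_apply, vsub_eq_sub, vadd_eq_add, add_sub_cancel_left, smul_smul]
    norm_num

end Vale.Agent.H5.GenK
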