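import Mathlib

/-!
# GK-16 (`box_volume`, `closedBall_volume_le`): boxes in an orthonormal frame

`box_volume`: for an orthonormal basis `b` of a 3-dimensional space, the box
`{x | ∀ i, ⟪b i, x - e⟫ ∈ Icc (lo i) (hi i)}` has volume `∏ i, (hi i - lo i)`.

Proof.  `b.repr : E ≃ₗᵢ[ℝ] EuclideanSpace ℝ (Fin 3)` is measure preserving
(`OrthonormalBasis.measurePreserving_repr` / `LinearIsometryEquiv.measurePreserving`), so is
`EuclideanSpace.volume_preserving_measurableEquiv` (to `Fin 3 → ℝ`), and translations preserve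
volume.  Under `x ↦ (fun i => ⟪b i, x - e⟫) = b.repr (x - e)` the box is the preimage of
`Set.pi univ (fun i => Icc (lo i) (hi i))`, whose volume is `∏ i, ofReal (hi i - lo i)`
(`Real.volume_pi_Icc` / `volume_pi_pi`); `ENNReal.ofReal_prod_of_nonneg`.

`closedBall_volume_le`: `closedBall e r ⊆ {x | ∀ i, ⟪b i, x - e⟫ ∈ Icc (-r) r}` for any orthonormal
basis `b` (`|⟪b i, x - e⟫| ≤ ‖x - e‖`; a basis exists: `stdOrthonormalBasis ℝ E` reindexed by
`finCongr`/`hE`, or `(stdOrthonormalBasis ℝ E).reindex (finCongr hE)`), so its volume is at most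
`(2r)^3`.
-/

open MeasureTheory Set Module
open scoped ENNReal

namespace Vale.Agent.H5.GenK

variable {E : Type*} [NormedAddCommGroup E] [InnerProductSpace ℝ E] [FiniteDimensional ℝ E]
  [MeasurableSpace E] [BorelSpace E]

theorem box_volume (b : OrthonormalBasis (Fin 3) ℝ E) (e : E) (lo hi : Fin 3 → ℝ)
    (h : ∀ i, lo i ≤ hi i) :
    volume {x : E | ∀ i, inner ℝ (b i) (x - e) ∈ Icc (lo i) (hi i)} =
      ENNReal.ofReal (∏ i, (hi i - lo i)) := by
  have hmp1 : MeasurePreserving (fun x : E => x - e) volume volume :=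
    measurePreserving_sub_right volume e
  have hmp2 : MeasurePreserving b.repr volume volume := b.measurePreserving_repr
  have hmp3 : MeasurePreserving (@WithLp.ofLp 2 (Fin 3 → ℝ)) volume volume :=
    PiLp.volume_preserving_ofLp (Fin 3)
  have hmp := hmp3.comp (hmp2.comp hmp1)
  have hset : {x : E | ∀ i, inner ℝ (b i) (x - e) ∈ Icc (lo i) (hi i)} =
      ((@WithLp.ofLp 2 (Fin 3 → ℝ)) ∘ (b.repr ∘ fun x : E => x - e)) ⁻¹'
        (Set.pi univ (fun i => Icc (lo i) (hi i))) := by
    ext x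
    simp only [Set.mem_ofPred_eq, mem_preimage, Function.comp_apply, mem_pi, mem_univ,
      forall_true_left]
    refine forall_congr' (fun i => ?_)
    rw [b.repr_apply_apply]
  rw [hset, hmp.measure_preimage
    (MeasurableSet.univ_pi (fun i => measurableSet_Icc)).nullMeasurableSet, volume_pi_pi,
    ENNReal.ofReal_prod_of_nonneg (fun i _ => sub_nonneg.2 (h i))]
  refine Finset.prod_congr rfl (fun i _ => ?_)
  rw [Real.volume_Icc]

theorem closedBall_volume_le (hE : finrank ℝ E = 3) (e : E) {r : ℝ} (hr : 0 ≤ r) :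
    volume (Metric.closedBall e r) ≤ ENNReal.ofReal ((2 * r) ^ 3) := by
  obtain b : OrthonormalBasis (Fin 3) ℝ E := (stdOrthonormalBasis ℝ E).reindex (finCongr hE)
  have hsub : Metric.closedBall e r ⊆
      {x : E | ∀ i, inner ℝ (b i) (x - e) ∈ Icc ((fun _ : Fin 3 => -r) i) ((fun _ : Fin 3 => r) i)} := by
    intro x hx i
    have hx' : ‖x - e‖ ≤ r := by simpa [dist_eq_norm] using hx
    have h1 : |inner ℝ (b i) (x - e)| ≤ ‖b i‖ * ‖x - e‖ := abs_real_inner_le_norm _ _
    rw [b.orthonormal.1 i, one_mul] at h1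
    exact abs_le.1 (h1.trans hx')
  refine (measure_mono hsub).trans ?_
  rw [box_volume b e _ _ (fun _ => by linarith)]
  apply ENNReal.ofReal_le_ofReal
  simp [Fin.prod_univ_three]
  nlinarith [hr]

end Vale.Agent.H5.GenK
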