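import Mathlib

/-!
# GK-2 (`coneOver`): the cone from a point over a compact set

`coneOver p Q = {p + a • (q - p) | q ∈ Q, a ≥ 0}`.

* `coneOver_measurable`: for compact `Q` the cone is a countable union of compact sets
  (`⋃ n : ℕ`, image of `Icc 0 n ×ˢ Q` under the continuous map `(a, q) ↦ p + a • (q - p)`), hence
  measurable.
* `coneOver_smul`, `coneOver_smul_compl`: the cone and its complement are invariant under
  homotheties centred at `p` with ratio `a ≥ 0`, resp. `a > 0` (for the complement: if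
  `p + a • (x - p)` were in the cone then `x = p + a⁻¹ • ((p + a • (x - p)) - p)` would be).
* `subset_coneOver` (take `a = 1`), `self_mem_coneOver` (take `a = 0`).
-/

open Set

namespace Vale.Agent.H5.GenK

variable {X : Type*} [NormedAddCommGroup X] [NormedSpace ℝ X]

/-- The cone with apex `p` over the set `Q`. -/
def coneOver (p : X) (Q : Set X) : Set X :=
  {x | ∃ q ∈ Q, ∃ a : ℝ, 0 ≤ a ∧ x = p + a • (q - p)}

theorem subset_coneOver (p : X) (Q : Set X) : Q ⊆ coneOver p Q := by
  intro q hq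
  exact ⟨q, hq, 1, zero_le_one, by simp⟩

theorem self_mem_coneOver {p : X} {Q : Set X} (hQ : Q.Nonempty) : p ∈ coneOver p Q := by
  obtain ⟨q, hq⟩ := hQ
  exact ⟨q, hq, 0, le_rfl, by simp⟩

theorem coneOver_smul {p : X} {Q : Set X} {x : X} (hx : x ∈ coneOver p Q) {a : ℝ} (ha : 0 ≤ a) :
    p + a • (x - p) ∈ coneOver p Q := by
  obtain ⟨q, hq, b, hb, rfl⟩ := hx
  exact ⟨q, hq, a * b, mul_nonneg ha hb, by simp [mul_smul]⟩

theorem coneOver_smul_compl {p : X} {Q : Set X} {x : X} (hx : x ∉ coneOver p Q) {a : ℝ}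
    (ha : 0 < a) : p + a • (x - p) ∉ coneOver p Q := by
  intro h
  apply hx
  have := coneOver_smul h (inv_nonneg.2 ha.le)
  simpa [smul_smul, inv_mul_cancel₀ ha.ne'] using this

theorem coneOver_measurable [MeasurableSpace X] [BorelSpace X] {p : X} {Q : Set X}
    (hQ : IsCompact Q) : MeasurableSet (coneOver p Q) := by
  have hcont : Continuous (fun z : ℝ × X => p + z.1 • (z.2 - p)) :=
    continuous_const.add (continuous_fst.smul (continuous_snd.sub continuous_const))
  have heq : coneOver p Q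
      = ⋃ n : ℕ, (fun z : ℝ × X => p + z.1 • (z.2 - p)) '' (Icc (0 : ℝ) n ×ˢ Q) := by
    ext x
    simp only [mem_iUnion, mem_image, mem_prod, mem_Icc, Prod.exists]
    constructor
    · rintro ⟨q, hq, a, ha, rfl⟩
      obtain ⟨n, hn⟩ := exists_nat_ge a
      exact ⟨n, a, q, ⟨⟨ha, hn⟩, hq⟩, rfl⟩
    · rintro ⟨n, a, q, ⟨⟨ha, -⟩, hq⟩, rfl⟩
      exact ⟨q, hq, a, ha, rfl⟩
  rw [heq]
  refine MeasurableSet.iUnion fun n => ?_
  exact ((isCompact_Icc.prod hQ).image hcont).isClosed.measurableSet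

end Vale.Agent.H5.GenK
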