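import Mathlib

/-!
# GK-17 (`sharp_frame`): an orthonormal frame adapted to two non-parallel unit vectors

`ξ₁, ξ₂` unit vectors of a 3-dimensional real inner product space with
`s^2 ≤ 1 - ⟪ξ₁, ξ₂⟫^2`, `s > 0`.  Then there are an orthonormal basis `b` and `σ ∈ [s, 1]` with
`b 0 = ξ₁` and `ξ₂ = ⟪ξ₁, ξ₂⟫ • b 0 + σ • b 1`.

Proof.  `c := ⟪ξ₁, ξ₂⟫`, `σ := √(1 - c^2)`; `s ≤ σ` (`Real.le_sqrt`), `σ ≤ 1`, `σ > 0`.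
`ζ := σ⁻¹ • (ξ₂ - c • ξ₁)`: `‖ξ₂ - c • ξ₁‖^2 = 1 - c^2 = σ^2`, so `‖ζ‖ = 1`, and
`⟪ξ₁, ζ⟫ = σ⁻¹ (c - c) = 0`.  The family `v := ![ξ₁, ζ, 0]` is orthonormal on `{0, 1}`;
`Orthonormal.exists_orthonormalBasis_extension_of_card_eq` (with `finrank ℝ E = Fintype.card (Fin 3)`)
gives an orthonormal basis `b` with `b 0 = ξ₁`, `b 1 = ζ`.  Then
`c • b 0 + σ • b 1 = c • ξ₁ + (ξ₂ - c • ξ₁) = ξ₂`.
-/

open Module

namespace Vale.Agent.H5.GenK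

variable {E : Type*} [NormedAddCommGroup E] [InnerProductSpace ℝ E] [FiniteDimensional ℝ E]

theorem sharp_frame (hE : finrank ℝ E = 3) {ξ₁ ξ₂ : E} (h1 : ‖ξ₁‖ = 1) (h2 : ‖ξ₂‖ = 1)
    {s : ℝ} (hs : 0 < s) (hs2 : s ^ 2 ≤ 1 - (inner ℝ ξ₁ ξ₂) ^ 2) :
    ∃ (b : OrthonormalBasis (Fin 3) ℝ E) (σ : ℝ), s ≤ σ ∧ σ ≤ 1 ∧ b 0 = ξ₁ ∧
      ξ₂ = inner ℝ ξ₁ ξ₂ • b 0 + σ • b 1 := by
  classical
  have h11 : inner ℝ ξ₁ ξ₁ = (1 : ℝ) := by rw [real_inner_self_eq_norm_sq, h1]; norm_num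
  have h22 : inner ℝ ξ₂ ξ₂ = (1 : ℝ) := by rw [real_inner_self_eq_norm_sq, h2]; norm_num
  have h21 : inner ℝ ξ₂ ξ₁ = inner ℝ ξ₁ ξ₂ := real_inner_comm _ _
  generalize hc : inner ℝ ξ₁ ξ₂ = c at *
  have hpos : 0 < 1 - c ^ 2 := by nlinarith [sq_pos_of_pos hs]
  have hσpos : 0 < Real.sqrt (1 - c ^ 2) := Real.sqrt_pos.2 hpos
  have hσsq : Real.sqrt (1 - c ^ 2) ^ 2 = 1 - c ^ 2 := Real.sq_sqrt hpos.le
  generalize Real.sqrt (1 - c ^ 2) = σ at hσpos hσsq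
  have hsσ : s ≤ σ := by nlinarith
  have hσ1 : σ ≤ 1 := by nlinarith [sq_nonneg c]
  have hnorm_sq : inner ℝ (ξ₂ - c • ξ₁) (ξ₂ - c • ξ₁) = σ ^ 2 := by
    rw [hσsq]
    simp only [inner_sub_left, inner_sub_right, real_inner_smul_left, real_inner_smul_right,
      h11, h22, h21, hc]
    ring
  have h3 : ‖ξ₂ - c • ξ₁‖ = σ := by
    have h4 : ‖ξ₂ - c • ξ₁‖ ^ 2 = σ ^ 2 := by
      rw [← real_inner_self_eq_norm_sq]; exact hnorm_sq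
    nlinarith [norm_nonneg (ξ₂ - c • ξ₁), sq_nonneg (‖ξ₂ - c • ξ₁‖ - σ)]
  have hζn : ‖σ⁻¹ • (ξ₂ - c • ξ₁)‖ = 1 := by
    rw [norm_smul, norm_inv, Real.norm_eq_abs, abs_of_pos hσpos, h3, inv_mul_cancel₀ hσpos.ne']
  have hζ1 : inner ℝ ξ₁ (σ⁻¹ • (ξ₂ - c • ξ₁)) = (0 : ℝ) := by
    rw [real_inner_smul_right, inner_sub_right, real_inner_smul_right, h11, hc]
    ring
  have hζ1' : inner ℝ (σ⁻¹ • (ξ₂ - c • ξ₁)) ξ₁ = (0 : ℝ) := by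
    rw [real_inner_comm]; exact hζ1
  obtain ⟨ζ, hζdef⟩ : ∃ ζ : E, ζ = σ⁻¹ • (ξ₂ - c • ξ₁) := ⟨_, rfl⟩
  rw [← hζdef] at hζn hζ1 hζ1'
  have horth : Orthonormal ℝ (({0, 1} : Set (Fin 3)).restrict ![ξ₁, ζ, 0]) := by
    refine ⟨?_, ?_⟩
    · rintro ⟨i, hi⟩
      rcases hi with rfl | rfl
      · exact h1
      · exact hζn
    · rintro ⟨i, hi⟩ ⟨j, hj⟩ hij
      rcases hi with rfl | rfl <;> rcases hj with rfl | rfl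
      · exact absurd rfl hij
      · exact hζ1
      · exact hζ1'
      · exact absurd rfl hij
  obtain ⟨b, hb⟩ := horth.exists_orthonormalBasis_extension_of_card_eq (by rw [hE]; simp)
  have hb0 : b 0 = ξ₁ := hb 0 (by simp)
  have hb1 : b 1 = ζ := hb 1 (by simp)
  refine ⟨b, σ, hsσ, hσ1, hb0, ?_⟩
  rw [hb0, hb1, hζdef, smul_smul, mul_inv_cancel₀ hσpos.ne', one_smul]
  abel

end Vale.Agent.H5.GenK
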