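import Mathlib

/-!
# GK-15 (`exists_nearest`): the nearest-point map of a closed convex set

For a non-empty closed convex set `K` of a finite-dimensional real inner product space there is
a map `P : E → E` with values in `K`, satisfying the variational inequality
`⟪x - P x, y - P x⟫ ≤ 0` for all `y ∈ K`, and `1`-Lipschitz.

Proof.  `exists_norm_eq_iInf_of_complete_convex` (`K` is complete: `IsClosed.isComplete`, `E`
complete by `FiniteDimensional.complete ℝ E`) gives for every `x` a point `P x ∈ K` with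
`‖x - P x‖ = ⨅ w : K, ‖x - w‖`; `norm_eq_iInf_iff_real_inner_le_zero` turns this into the
variational inequality.  Lipschitz: add the inequalities for `(x, y := P x')` and
`(x', y := P x)`: `‖P x - P x'‖^2 ≤ ⟪x - x', P x - P x'⟫ ≤ ‖x - x'‖ ‖P x - P x'‖`.
-/

namespace Vale.Agent.H5.GenK

variable {E : Type*} [NormedAddCommGroup E] [InnerProductSpace ℝ E] [FiniteDimensional ℝ E]

theorem exists_nearest {K : Set E} (hKne : K.Nonempty) (hKcl : IsClosed K) (hKc : Convex ℝ K) :
    ∃ P : E → E, (∀ x, P x ∈ K) ∧ (∀ x, ∀ y ∈ K, inner ℝ (x - P x) (y - P x) ≤ 0) ∧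
      (∀ x y, ‖P x - P y‖ ≤ ‖x - y‖) := by
  have : CompleteSpace E := FiniteDimensional.complete ℝ E
  have hcomp : IsComplete K := hKcl.isComplete
  have hex : ∀ x : E, ∃ p ∈ K, ‖x - p‖ = ⨅ w : K, ‖x - w‖ :=
    fun x => exists_norm_eq_iInf_of_complete_convex hKne hcomp hKc x
  choose P hPK hPmin using hex
  have hvar : ∀ x, ∀ y ∈ K, inner ℝ (x - P x) (y - P x) ≤ 0 := by
    intro x y hy
    exact (norm_eq_iInf_iff_real_inner_le_zero hKc (hPK x)).mp (hPmin x) y hy
  refine ⟨P, hPK, hvar, ?_⟩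
  intro x y
  have h1 := hvar x (P y) (hPK y)
  have h2 := hvar y (P x) (hPK x)
  have hsq : ‖P x - P y‖ ^ 2 ≤ inner ℝ (x - y) (P x - P y) := by
    have e1 : inner ℝ (x - P x) (P y - P x) = - inner ℝ (x - P x) (P x - P y) := by
      rw [← inner_neg_right, neg_sub]
    have e2 : inner ℝ (x - y) (P x - P y)
        = inner ℝ (x - P x) (P x - P y) + inner ℝ (P x - P y) (P x - P y)
          - inner ℝ (y - P y) (P x - P y) := by
      rw [← inner_add_left, ← inner_sub_left]
      congr 1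
      abel
    rw [e2, real_inner_self_eq_norm_sq]
    linarith
  have hcs : inner ℝ (x - y) (P x - P y) ≤ ‖x - y‖ * ‖P x - P y‖ := real_inner_le_norm _ _
  by_cases h0 : ‖P x - P y‖ = 0
  · rw [h0]
    exact norm_nonneg _
  · have hpos : 0 < ‖P x - P y‖ := lt_of_le_of_ne (norm_nonneg _) (Ne.symm h0)
    have : ‖P x - P y‖ * ‖P x - P y‖ ≤ ‖x - y‖ * ‖P x - P y‖ := by
      calc ‖P x - P y‖ * ‖P x - P y‖ = ‖P x - P y‖ ^ 2 := by ring
        _ ≤ inner ℝ (x - y) (P x - P y) := hsq
        _ ≤ ‖x - y‖ * ‖P x - P y‖ := hcs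
    exact le_of_mul_le_mul_right this hpos

end Vale.Agent.H5.GenK
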