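import Vale.Agent.H5.GenK.Defs
import Vale.Agent.H5.GenK.Nearest
import Vale.Agent.H5.GenK.BoxVol
import Vale.Agent.H5.GenK.Frame
import Vale.Agent.H5.GenK.BoxNear
import Vale.Agent.H5.GenK.BoxSub

/-!
# GK-20 (`packing_count`): separated sharp points are few (LEMMA P (i))

`K` compact convex in the 3-space `E`, `closedBall c ρ ⊆ K`, `0 < d0 ≤ ρ`, `2ρη ≤ d0^2`,
`η > 0`, `s > 0`.  If `F` is a finite set of `(η, s)`-sharp points with pairwise distances
`> 4 d0`, then `|F| * (s ρ^2 d0 / 8) ≤ 27 vol K`.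

Proof.  `P` := nearest-point map (`exists_nearest`; `K` is closed, non-empty).  For `e ∈ F`
unfold `Sharp`: `e ∈ K`, `ξ₁, ξ₂`, caps; `sharp_frame` gives `b_e`, `σ_e ∈ [s, 1]` (choose them
with `Classical.choose` / `choose` over `e ∈ F`; a function on all of `E` defined by `dite` is
convenient).  `Σ_e := {x | ∀ i, ⟪b_e i, x - e⟫ ∈ Icc (lo i) (hi i)}` with
`lo = ![ρ/4, 0, -d0]`, `hi = ![ρ/2, σ_e ρ/4, d0]`.
* `volume Σ_e = ofReal ((ρ/4) (σ_e ρ/4) (2 d0)) ≥ ofReal (s ρ^2 d0/8)` (`box_volume`,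
  `Fin.prod_univ_three`).
* `Σ_e` is measurable (closed: finite intersection of preimages of `Icc` under continuous maps;
  or `measurableSet_setOf` with `Measurable` inner products).
* `Σ_e ⊆ AffineMap.homothety c 3 '' K` (`box_subset`), and
  `volume (AffineMap.homothety c 3 '' K) = ofReal |3^3| * volume K = 27 * volume K`
  (`Measure.addHaar_image_homothety`, `hE`).
* Disjointness: if `x ∈ Σ_e ∩ Σ_e'` then `‖P x - e‖ ≤ 2 d0` and `‖P x - e'‖ ≤ 2 d0`
  (`box_near`), so `dist e e' ≤ 4 d0`, hence `e = e'` by `hsep`.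
So `∑ e ∈ F, volume Σ_e = volume (⋃ e ∈ F, Σ_e) ≤ 27 * volume K`
(`measure_biUnion_finset`), and the left side is `≥ |F| * ofReal (s ρ^2 d0/8)`
(`Finset.card_nsmul_le_sum` or `Finset.sum_le_sum` + `Finset.sum_const`).
-/

open MeasureTheory Set Module
open scoped ENNReal

namespace Vale.Agent.H5.GenK

variable {E : Type*} [NormedAddCommGroup E] [InnerProductSpace ℝ E] [FiniteDimensional ℝ E]
  [MeasurableSpace E] [BorelSpace E]

theorem packing_count (hE : finrank ℝ E = 3) {K : Set E} (hK : IsCompact K) (hKc : Convex ℝ K)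
    {c : E} {ρ η s d0 : ℝ} (hρ : 0 < ρ) (hin : Metric.closedBall c ρ ⊆ K) (hη : 0 < η)
    (hs : 0 < s) (hd0 : 0 < d0) (hd0ρ : d0 ≤ ρ) (hd : 2 * ρ * η ≤ d0 ^ 2)
    (F : Finset E) (hF : ∀ e ∈ F, Sharp K η s e)
    (hsep : ∀ e ∈ F, ∀ e' ∈ F, e ≠ e' → 4 * d0 < dist e e') :
    (F.card : ℝ≥0∞) * ENNReal.ofReal (s * ρ ^ 2 * d0 / 8) ≤ 27 * volume K := by
  classical
  have hKne : K.Nonempty := ⟨c, hin (Metric.mem_closedBall_self hρ.le)⟩
  obtain ⟨P, hPK, hPvar, hPlip⟩ := exists_nearest hKne hK.isClosed hKc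
  have key : ∀ e ∈ F, ∃ S : Set E, MeasurableSet S ∧
      ENNReal.ofReal (s * ρ ^ 2 * d0 / 8) ≤ volume S ∧
      S ⊆ AffineMap.homothety c (3 : ℝ) '' K ∧ ∀ x ∈ S, ‖P x - e‖ ≤ 2 * d0 := by
    intro e he
    obtain ⟨heK, ξ₁, ξ₂, h1, h2, hs2, hcap₁, hcap₂⟩ := hF e he
    obtain ⟨b, σ, hsσ, hσ1, hb0, hb1⟩ := sharp_frame hE h1 h2 hs hs2
    have hσ0 : 0 < σ := lt_of_lt_of_le hs hsσ
    obtain ⟨lo, hlo⟩ : ∃ lo : Fin 3 → ℝ, lo = ![ρ / 4, 0, -d0] := ⟨_, rfl⟩
    obtain ⟨hi, hhi⟩ : ∃ hi : Fin 3 → ℝ, hi = ![ρ / 2, σ * ρ / 4, d0] := ⟨_, rfl⟩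
    have hlo0 : lo 0 = ρ / 4 := by rw [hlo]; rfl
    have hlo1 : lo 1 = 0 := by rw [hlo]; rfl
    have hlo2 : lo 2 = -d0 := by rw [hlo]; rfl
    have hhi0 : hi 0 = ρ / 2 := by rw [hhi]; rfl
    have hhi1 : hi 1 = σ * ρ / 4 := by rw [hhi]; rfl
    have hhi2 : hi 2 = d0 := by rw [hhi]; rfl
    have hx0 : ∀ x : E, (∀ i, inner ℝ (b i) (x - e) ∈ Icc (lo i) (hi i)) →
        inner ℝ (b 0) (x - e) ∈ Icc (ρ / 4) (ρ / 2) := by
      intro x hx
      have := hx 0
      rwa [hlo0, hhi0] at this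
    have hx1 : ∀ x : E, (∀ i, inner ℝ (b i) (x - e) ∈ Icc (lo i) (hi i)) →
        inner ℝ (b 1) (x - e) ∈ Icc 0 (σ * ρ / 4) := by
      intro x hx
      have := hx 1
      rwa [hlo1, hhi1] at this
    have hx2 : ∀ x : E, (∀ i, inner ℝ (b i) (x - e) ∈ Icc (lo i) (hi i)) →
        inner ℝ (b 2) (x - e) ∈ Icc (-d0) d0 := by
      intro x hx
      have := hx 2
      rwa [hlo2, hhi2] at this
    refine ⟨{x : E | ∀ i, inner ℝ (b i) (x - e) ∈ Icc (lo i) (hi i)}, ?_, ?_, ?_, ?_⟩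
    · have hset : {x : E | ∀ i, inner ℝ (b i) (x - e) ∈ Icc (lo i) (hi i)}
          = ⋂ i, (fun x : E => inner ℝ (b i) (x - e)) ⁻¹' Icc (lo i) (hi i) := by
        ext x
        simp only [mem_iInter, mem_preimage]
        exact Iff.rfl
      rw [hset]
      refine MeasurableSet.iInter (fun i => ?_)
      have hcont : Continuous (fun x : E => inner ℝ (b i) (x - e)) := by fun_prop
      exact (isClosed_Icc.preimage hcont).measurableSet
    · have hle : ∀ i, lo i ≤ hi i := by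
        intro i
        fin_cases i
        · show lo 0 ≤ hi 0
          rw [hlo0, hhi0]; linarith
        · show lo 1 ≤ hi 1
          rw [hlo1, hhi1]; positivity
        · show lo 2 ≤ hi 2
          rw [hlo2, hhi2]; linarith
      rw [box_volume b e lo hi hle]
      apply ENNReal.ofReal_le_ofReal
      rw [Fin.prod_univ_three, hlo0, hlo1, hlo2, hhi0, hhi1, hhi2]
      have h3 : s * (ρ ^ 2 * d0) ≤ σ * (ρ ^ 2 * d0) :=
        mul_le_mul_of_nonneg_right hsσ (by positivity)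
      nlinarith [h3]
    · intro x hx
      exact box_subset hKc hρ hin heK hd0.le hd0ρ hσ0.le hσ1 b (hx0 x hx) (hx1 x hx) (hx2 x hx)
    · intro x hx
      exact box_near hPK hPvar hPlip heK hη.le hρ hd0.le hd h1 h2 hcap₁ hcap₂ b hb0 hσ0 hσ1 hb1
        (hx0 x hx) (hx1 x hx) (hx2 x hx)
  choose! S hSm hSv hSsub hSnear using key
  have hdisj : (F : Set E).PairwiseDisjoint S := by
    intro e he e' he' hne
    rw [Function.onFun, Set.disjoint_left]
    intro x hx hx'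
    have h1 := hSnear e he x hx
    have h2 := hSnear e' he' x hx'
    have h3 : dist e e' ≤ 4 * d0 := by
      calc dist e e' ≤ dist e (P x) + dist (P x) e' := dist_triangle _ _ _
        _ = ‖P x - e‖ + ‖P x - e'‖ := by rw [dist_comm e, dist_eq_norm, dist_eq_norm]
        _ ≤ 4 * d0 := by linarith
    exact absurd (hsep e he e' he' hne) (not_lt.mpr h3)
  have hvol : volume (AffineMap.homothety c (3 : ℝ) '' K) = 27 * volume K := by
    rw [Measure.addHaar_image_homothety, hE]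
    congr 1
    rw [show |(3 : ℝ) ^ 3| = 27 by norm_num]
    norm_num
  calc (F.card : ℝ≥0∞) * ENNReal.ofReal (s * ρ ^ 2 * d0 / 8)
      = ∑ _e ∈ F, ENNReal.ofReal (s * ρ ^ 2 * d0 / 8) := by
        rw [Finset.sum_const, nsmul_eq_mul]
    _ ≤ ∑ e ∈ F, volume (S e) := Finset.sum_le_sum hSv
    _ = volume (⋃ e ∈ F, S e) := (measure_biUnion_finset hdisj hSm).symm
    _ ≤ volume (AffineMap.homothety c (3 : ℝ) '' K) := measure_mono (Set.iUnion₂_subset hSsub)
    _ = 27 * volume K := hvol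

end Vale.Agent.H5.GenK
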