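import Mathlib

/-!
# GK-21 (`exists_separated_cover`): a maximal separated subset is a net

If every finite `r`-separated subset of `Z` has at most `M` points (`r ≥ 0`), then there is a
finite `r`-separated `F ⊆ Z` such that every point of `Z` is within `r` of a point of `F`.

Proof.  The set of cardinalities of finite `r`-separated subsets of `Z` is non-empty (`∅`) and
bounded by `M`; take `F` of maximal cardinality (`Nat.findGreatest`, or induction on `M - card`,
or `Set.Finite`/`exists_max_image` on `Finset.range (M + 1)`).  If some `z ∈ Z` had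
`dist z e > r` for all `e ∈ F`, then `z ∉ F` (`dist z z = 0 ≤ r`) and `insert z F` would be a
larger separated subset of `Z` (`dist_comm`).
-/

namespace Vale.Agent.H5.GenK

theorem exists_separated_cover {α : Type*} [PseudoMetricSpace α] (Z : Set α) {r : ℝ}
    (hr : 0 ≤ r) (M : ℕ)
    (hM : ∀ F : Finset α, (∀ e ∈ F, e ∈ Z) →
      (∀ e ∈ F, ∀ e' ∈ F, e ≠ e' → r < dist e e') → F.card ≤ M) :
    ∃ F : Finset α, (∀ e ∈ F, e ∈ Z) ∧ (∀ e ∈ F, ∀ e' ∈ F, e ≠ e' → r < dist e e') ∧
      ∀ z ∈ Z, ∃ e ∈ F, dist z e ≤ r := by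
  classical
  let P : ℕ → Prop := fun k => ∃ F : Finset α, (∀ e ∈ F, e ∈ Z) ∧
    (∀ e ∈ F, ∀ e' ∈ F, e ≠ e' → r < dist e e') ∧ F.card = k
  have hP0 : P 0 := ⟨∅, by simp, by simp, by simp⟩
  have hspec : P (Nat.findGreatest P M) := Nat.findGreatest_spec (Nat.zero_le M) hP0
  obtain ⟨F, hFZ, hFsep, hFcard⟩ := hspec
  refine ⟨F, hFZ, hFsep, ?_⟩
  intro z hz
  by_contra hcon
  have hcon' : ∀ e ∈ F, r < dist z e := by
    intro e he
    by_contra h
    exact hcon ⟨e, he, not_lt.mp h⟩
  have hzF : z ∉ F := by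
    intro hzF
    have h := hcon' z hzF
    rw [dist_self] at h
    exact absurd h (not_lt.mpr hr)
  have hsep' : ∀ e ∈ insert z F, ∀ e' ∈ insert z F, e ≠ e' → r < dist e e' := by
    intro e he e' he' hne
    rw [Finset.mem_insert] at he he'
    rcases he with h1 | h1 <;> rcases he' with h2 | h2
    · exact absurd (h1.trans h2.symm) hne
    · rw [h1]; exact hcon' e' h2
    · rw [h2, dist_comm]; exact hcon' e h1
    · exact hFsep e h1 e' h2 hne
  have hZ' : ∀ e ∈ insert z F, e ∈ Z := by
    intro e he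
    rcases Finset.mem_insert.mp he with h1 | h1
    · rw [h1]; exact hz
    · exact hFZ e h1
  have hcard' : (insert z F).card = Nat.findGreatest P M + 1 := by
    rw [Finset.card_insert_of_notMem hzF, hFcard]
  have hle : Nat.findGreatest P M + 1 ≤ M := by
    rw [← hcard']; exact hM _ hZ' hsep'
  exact Nat.findGreatest_is_greatest (Nat.lt_succ_self _) hle ⟨insert z F, hZ', hsep', hcard'⟩

end Vale.Agent.H5.GenK
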