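import Mathlib

/-!
# P243, general convex bodies (project GK): definitions

Source of the proof: thread P243, posts #2414 and #2415 (helper15), with the Lean-oriented
changes described in `PLAN.md` of this folder.

* `gkEps q = q ^ 15 / (18 * 10 ^ 24)`: the explicit gain over `1/3` for a convex body with
  inradius/circumradius ratio at least `q` (same centre).
* `Sharp K η s e`: the point `e ∈ K` lies in two caps of `K` of height `η` whose unit normals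
  `ξ₁, ξ₂` satisfy `1 - ⟪ξ₁, ξ₂⟫ ^ 2 ≥ s ^ 2`.
-/

namespace Vale.Agent.H5.GenK

/-- The explicit gain over `1/3`. -/
noncomputable def gkEps (q : ℝ) : ℝ := q ^ 15 / (18 * 10 ^ 24)

theorem gkEps_pos {q : ℝ} (hq : 0 < q) : 0 < gkEps q := by
  unfold gkEps
  positivity

theorem gkEps_mono {q q' : ℝ} (hq : 0 ≤ q) (h : q ≤ q') : gkEps q ≤ gkEps q' := by
  unfold gkEps
  gcongr

variable {E : Type*} [NormedAddCommGroup E] [InnerProductSpace ℝ E]

/-- `e ∈ K` lies in two caps of height `η` with unit normals at angle at least `s`. -/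
def Sharp (K : Set E) (η s : ℝ) (e : E) : Prop :=
  e ∈ K ∧ ∃ ξ₁ ξ₂ : E, ‖ξ₁‖ = 1 ∧ ‖ξ₂‖ = 1 ∧ s ^ 2 ≤ 1 - (inner ℝ ξ₁ ξ₂) ^ 2 ∧
    (∀ y ∈ K, inner ℝ ξ₁ (y - e) ≤ η) ∧ (∀ y ∈ K, inner ℝ ξ₂ (y - e) ≤ η)

theorem Sharp.mono {K : Set E} {η η' s s' : ℝ} {e : E} (h : Sharp K η s e) (hη : η ≤ η')
    (hs0 : 0 ≤ s') (hs : s' ≤ s) : Sharp K η' s' e := by
  obtain ⟨he, ξ₁, ξ₂, h1, h2, h3, h4, h5⟩ := h
  refine ⟨he, ξ₁, ξ₂, h1, h2, ?_, fun y hy => (h4 y hy).trans hη, fun y hy => (h5 y hy).trans hη⟩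
  have : s' ^ 2 ≤ s ^ 2 := by nlinarith
  linarith

end Vale.Agent.H5.GenK
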