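import Mathlib

/-!
# GK-3 (`gain_integral`, `cone_integral`): two one-dimensional integrals

`cone_integral`: if `g h ≥ (1 - h/L)^2 A` for `h ∈ (0, L]` then `∫⁻ h in Ioi 0, g h ≥ (L/3) A`.

`gain_integral`: if moreover `0 ≤ m ≤ L/2` and `g h ≥ ((L - h)/(L - m))^2 A` for
`h ∈ ((L+m)/2, L)`, then `∫⁻ h in Ioi 0, g h ≥ (L/3 + m/32) A`.

Proof.  Restrict the integral to `Ioc 0 L` (`lintegral_mono_set`), bound `g` below by
`ofReal (φ h) * A` with the continuous (piecewise polynomial) function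
`φ h = (1 - h/L)^2` on the interval from 0 to (L+m)/2 and the squared quotient (L-h)/(L-m)
on the interval from (L+m)/2 to L (resp. the first
formula on all of the interval), pull out `A` by `lintegral_mul_const`, and compute
`∫_0^{(L+m)/2} (1-h/L)^2 dh + ∫_{(L+m)/2}^{L} ((L-h)/(L-m))^2 dh
 = L/3 - (L-m)^3/(24 L^2) + (L-m)/24 = L/3 + m (L-m)(2L-m)/(24 L^2) ≥ L/3 + m/32`
(`L - m ≥ L/2`, `2L - m ≥ 3L/2`).  It is convenient to split `Ioc 0 L` into the two intervals
first (`lintegral_union` / `setLIntegral` over `Ioc 0 ((L+m)/2)` and `Ioc ((L+m)/2) L`) and to use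
`ofReal_integral_eq_lintegral_ofReal` + `intervalIntegral` with `integral_comp_sub_left`,
`integral_pow` on each piece, as in `Vale.Agent.H5.P243.ucone_integral`.  No measurability of
`g` is assumed: use `setLIntegral_mono'` (needs measurability of the set only) with the measurable
lower bound on the left.
-/

open MeasureTheory Set
open scoped ENNReal

namespace Vale.Agent.H5.GenK

theorem gain_integral (g : ℝ → ℝ≥0∞) (A : ℝ≥0∞) {L m : ℝ} (hL : 0 < L) (hm0 : 0 ≤ m)
    (hmL : m ≤ L / 2)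
    (h1 : ∀ h : ℝ, 0 < h → h ≤ (L + m) / 2 → ENNReal.ofReal ((1 - h / L) ^ 2) * A ≤ g h)
    (h2 : ∀ h : ℝ, (L + m) / 2 < h → h < L →
      ENNReal.ofReal (((L - h) / (L - m)) ^ 2) * A ≤ g h) :
    ENNReal.ofReal (L / 3 + m / 32) * A ≤ ∫⁻ h in Ioi (0 : ℝ), g h := by
  set c : ℝ := (L + m) / 2 with hc
  have hc0 : 0 < c := by rw [hc]; linarith
  have hcL : c < L := by rw [hc]; linarith
  have hLm : 0 < L - m := by linarith
  have hL0 : L ≠ 0 := hL.ne'
  have hLm0 : L - m ≠ 0 := hLm.ne'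
  -- first piece
  have hI1 : ENNReal.ofReal (L / 3 - (L / 3) * (1 - c / L) ^ 3) * A ≤
      ∫⁻ h in Ioc (0 : ℝ) c, g h := by
    have hint : IntegrableOn (fun h : ℝ => (1 - h / L) ^ 2) (Ioc 0 c) := by
      apply Continuous.integrableOn_Ioc
      fun_prop
    have hval : ∫ h in Ioc (0 : ℝ) c, (1 - h / L) ^ 2 =
        L / 3 - (L / 3) * (1 - c / L) ^ 3 := by
      rw [← intervalIntegral.integral_of_le hc0.le]
      have hderiv : ∀ x ∈ Set.uIcc (0 : ℝ) c,
          HasDerivAt (fun h : ℝ => -(L / 3) * (1 - h / L) ^ 3) ((1 - x / L) ^ 2) x := by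
        intro x _
        have hd1 : HasDerivAt (fun h : ℝ => 1 - h / L) (-(1 / L)) x :=
          ((hasDerivAt_id' x).div_const L).const_sub 1
        have hd3 := (hd1.pow 3).const_mul (-(L / 3))
        have hev : (1 - x / L) ^ 2 = -(L / 3) * (3 * (1 - x / L) ^ 2 * -(1 / L)) := by
          field_simp
        rw [hev]
        have hd3' : HasDerivAt (fun h : ℝ => -(L / 3) * (1 - h / L) ^ 3)
            (-(L / 3) * (((3 : ℕ) : ℝ) * (1 - x / L) ^ (3 - 1) * -(1 / L))) x := hd3
        have h31 : (3 - 1 : ℕ) = 2 := rfl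
        rw [h31] at hd3'
        exact_mod_cast hd3'
      rw [intervalIntegral.integral_eq_sub_of_hasDerivAt hderiv]
      · simp
        ring
      · apply Continuous.intervalIntegrable
        fun_prop
    calc ENNReal.ofReal (L / 3 - (L / 3) * (1 - c / L) ^ 3) * A
        = (∫⁻ h in Ioc (0 : ℝ) c, ENNReal.ofReal ((1 - h / L) ^ 2)) * A := by
          rw [← hval, ofReal_integral_eq_lintegral_ofReal hint
            (Filter.Eventually.of_forall fun h => by positivity)]
      _ = ∫⁻ h in Ioc (0 : ℝ) c, ENNReal.ofReal ((1 - h / L) ^ 2) * A := by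
          rw [lintegral_mul_const _ (by fun_prop)]
      _ ≤ ∫⁻ h in Ioc (0 : ℝ) c, g h := by
          apply setLIntegral_mono' measurableSet_Ioc
          intro h hh
          exact h1 h hh.1 hh.2
  -- second piece
  have hI2 : ENNReal.ofReal ((L - c) ^ 3 / (3 * (L - m) ^ 2)) * A ≤
      ∫⁻ h in Ioo c L, g h := by
    have hint : IntegrableOn (fun h : ℝ => ((L - h) / (L - m)) ^ 2) (Ioc c L) := by
      apply Continuous.integrableOn_Ioc
      fun_prop
    have hval : ∫ h in Ioc c L, ((L - h) / (L - m)) ^ 2 =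
        (L - c) ^ 3 / (3 * (L - m) ^ 2) := by
      rw [← intervalIntegral.integral_of_le hcL.le]
      have hderiv : ∀ x ∈ Set.uIcc c L,
          HasDerivAt (fun h : ℝ => -((L - h) ^ 3 / (3 * (L - m) ^ 2)))
            (((L - x) / (L - m)) ^ 2) x := by
        intro x _
        have hd1 : HasDerivAt (fun h : ℝ => L - h) (-1) x :=
          (hasDerivAt_id' x).const_sub L
        have hd3 := ((hd1.pow 3).div_const (3 * (L - m) ^ 2)).neg
        have hev : ((L - x) / (L - m)) ^ 2 =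
            -(3 * (L - x) ^ 2 * -1 / (3 * (L - m) ^ 2)) := by
          field_simp
        rw [hev]
        have hd3' : HasDerivAt (fun h : ℝ => -((L - h) ^ 3 / (3 * (L - m) ^ 2)))
            (-(((3 : ℕ) : ℝ) * (L - x) ^ (3 - 1) * -1 / (3 * (L - m) ^ 2))) x := hd3
        have h31 : (3 - 1 : ℕ) = 2 := rfl
        rw [h31] at hd3'
        exact_mod_cast hd3'
      rw [intervalIntegral.integral_eq_sub_of_hasDerivAt hderiv]
      · simp
      · apply Continuous.intervalIntegrable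
        fun_prop
    calc ENNReal.ofReal ((L - c) ^ 3 / (3 * (L - m) ^ 2)) * A
        = (∫⁻ h in Ioc c L, ENNReal.ofReal (((L - h) / (L - m)) ^ 2)) * A := by
          rw [← hval, ofReal_integral_eq_lintegral_ofReal hint
            (Filter.Eventually.of_forall fun h => by positivity)]
      _ = (∫⁻ h in Ioo c L, ENNReal.ofReal (((L - h) / (L - m)) ^ 2)) * A := by
          rw [setLIntegral_congr Ioo_ae_eq_Ioc]
      _ = ∫⁻ h in Ioo c L, ENNReal.ofReal (((L - h) / (L - m)) ^ 2) * A := by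
          rw [lintegral_mul_const _ (by fun_prop)]
      _ ≤ ∫⁻ h in Ioo c L, g h := by
          apply setLIntegral_mono' measurableSet_Ioo
          intro h hh
          exact h2 h hh.1 hh.2
  have hdisj : Disjoint (Ioc (0 : ℝ) c) (Ioo c L) := by
    rw [Set.disjoint_left]
    intro x hx hx'
    exact absurd hx.2 (not_le.2 hx'.1)
  have hsub : Ioc (0 : ℝ) c ∪ Ioo c L ⊆ Ioi 0 := by
    intro x hx
    rcases hx with hx | hx
    · exact hx.1
    · exact lt_trans hc0 hx.1
  have e1 : (L / 3) * (1 - c / L) ^ 3 = (L - m) ^ 3 / (24 * L ^ 2) := by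
    rw [hc]
    field_simp
    ring
  have e2 : (L - c) ^ 3 / (3 * (L - m) ^ 2) = (L - m) / 24 := by
    rw [hc]
    field_simp
    ring
  have hn1 : 0 ≤ L / 3 - (L / 3) * (1 - c / L) ^ 3 := by
    have h0 : 0 ≤ 1 - c / L := by
      rw [sub_nonneg, div_le_one hL]
      exact hcL.le
    have h1' : 1 - c / L ≤ 1 := by
      have : 0 ≤ c / L := div_nonneg hc0.le hL.le
      linarith
    have : (1 - c / L) ^ 3 ≤ 1 := pow_le_one₀ h0 h1'
    nlinarith
  have hn2 : 0 ≤ (L - c) ^ 3 / (3 * (L - m) ^ 2) := by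
    have : 0 ≤ L - c := by linarith
    positivity
  have hreal : L / 3 + m / 32 ≤
      (L / 3 - (L / 3) * (1 - c / L) ^ 3) + (L - c) ^ 3 / (3 * (L - m) ^ 2) := by
    rw [e1, e2]
    have hq : 3 * L ^ 2 ≤ 4 * ((L - m) * (2 * L - m)) := by
      nlinarith [mul_nonneg (sub_nonneg.2 hmL) (by linarith : (0 : ℝ) ≤ 5 * L / 2 - m)]
    have key : 0 ≤ m * (4 * ((L - m) * (2 * L - m)) - 3 * L ^ 2) :=
      mul_nonneg hm0 (sub_nonneg.2 hq)
    have hid : (L / 3 - (L - m) ^ 3 / (24 * L ^ 2) + (L - m) / 24) - (L / 3 + m / 32) =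
        m * (4 * ((L - m) * (2 * L - m)) - 3 * L ^ 2) / (96 * L ^ 2) := by
      field_simp
      ring
    have hpos : 0 ≤ m * (4 * ((L - m) * (2 * L - m)) - 3 * L ^ 2) / (96 * L ^ 2) :=
      div_nonneg key (by positivity)
    linarith
  calc ENNReal.ofReal (L / 3 + m / 32) * A
      ≤ ENNReal.ofReal ((L / 3 - (L / 3) * (1 - c / L) ^ 3) +
          (L - c) ^ 3 / (3 * (L - m) ^ 2)) * A := by
        gcongr
    _ = ENNReal.ofReal (L / 3 - (L / 3) * (1 - c / L) ^ 3) * A +
          ENNReal.ofReal ((L - c) ^ 3 / (3 * (L - m) ^ 2)) * A := by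
        rw [ENNReal.ofReal_add hn1 hn2, add_mul]
    _ ≤ (∫⁻ h in Ioc (0 : ℝ) c, g h) + ∫⁻ h in Ioo c L, g h := add_le_add hI1 hI2
    _ = ∫⁻ h in Ioc (0 : ℝ) c ∪ Ioo c L, g h := (lintegral_union measurableSet_Ioo hdisj).symm
    _ ≤ ∫⁻ h in Ioi (0 : ℝ), g h := lintegral_mono_set hsub

theorem cone_integral (g : ℝ → ℝ≥0∞) (A : ℝ≥0∞) {L : ℝ} (hL : 0 < L)
    (h1 : ∀ h : ℝ, 0 < h → h ≤ L → ENNReal.ofReal ((1 - h / L) ^ 2) * A ≤ g h) :
    ENNReal.ofReal (L / 3) * A ≤ ∫⁻ h in Ioi (0 : ℝ), g h := by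
  have h := gain_integral g A hL le_rfl (by positivity)
    (fun h h0 hh => h1 h h0 (by linarith))
    (fun h hh hL' => by
      have := h1 h (by linarith) hL'.le
      have e : (L - h) / (L - 0) = 1 - h / L := by
        have hL0 : L ≠ 0 := hL.ne'
        rw [sub_zero]
        field_simp
      rw [e]
      exact this)
  simpa using h

end Vale.Agent.H5.GenK
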