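import Vale.Agent.H76.BM
import Vale.Agent.H5.GenK.GainInt

/-!
# GK-4 (`gain_lemma`): the cone inequality with a gain on a cone of bad rays

`T ⊆ X × ℝ` compact convex, `X` two-dimensional, `S = Prod.fst '' T` its shadow, `p ∈ Lev T L`
(a chord of length `≥ L` over `p`), `0 ≤ m ≤ L/2`, `Γ` a measurable cone with apex `p`
(`hΓ`, `hΓc`: `Γ` and its complement are invariant under the homotheties `x ↦ p + a • (x - p)`).
If for all `x ∈ S ∩ Γ` and `θ ∈ [0, 1/2]` the chord over `p + θ • (x - p)` is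
`≥ L - (L - m) θ` (`hbad`), then `vol T ≥ (L/3) |S| + (m/32) |S ∩ Γ|`.

Proof.  `T = (T ∩ Γ ×ˢ univ) ∪ (T ∩ Γᶜ ×ˢ univ)` (disjoint, measurable), and by
`Vale.Agent.H76.layer_cake` (with `B = Γ` and `B = Γᶜ`)
`vol (T ∩ B ×ˢ univ) = ∫⁻ h in Ioi 0, volume (Lev T h ∩ B)`.

* For `0 < h ≤ L` and any `A ⊆ S` : `(fun x => p + (1 - h/L) • (x - p)) '' A ⊆ Lev T h`
  (`Lev_combo` with weights `h/L` on `p ∈ Lev T L` and `1 - h/L` on `x ∈ S = Lev T 0`,
  `Lev_of_nonpos`).  With `A = S ∩ Γᶜ` and `h < L` the image is also inside `Γᶜ` (`hΓc`; for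
  `h = L` use any bound, e.g. restrict to `h < L`, the point `h = L` does not matter but
  `cone_integral` asks for `h ≤ L`: for `h = L` the required lower bound is `ofReal 0 * _ = 0`).
  The image is `AffineMap.homothety p (1 - h/L) '' A`, of measure `(1 - h/L)^2 * volume A`
  (`Measure.addHaar_image_homothety`, `finrank = 2`).  Hence
  `volume (Lev T h ∩ Γᶜ) ≥ ofReal ((1 - h/L)^2) * volume (S ∩ Γᶜ)` and by `cone_integral`
  `vol (T ∩ Γᶜ ×ˢ univ) ≥ ofReal (L/3) * volume (S ∩ Γᶜ)`.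
* On `Γ`: the same for `0 < h ≤ (L+m)/2` (using `hΓ`); for `(L+m)/2 < h < L` put
  `θ = (L - h)/(L - m) ∈ (0, 1/2]`; `hbad` gives
  `(fun x => p + θ • (x - p)) '' (S ∩ Γ) ⊆ Lev T (L - (L - m) θ) ∩ Γ = Lev T h ∩ Γ`, of measure
  `θ^2 * volume (S ∩ Γ)`.  By `gain_integral`:
  `vol (T ∩ Γ ×ˢ univ) ≥ ofReal (L/3 + m/32) * volume (S ∩ Γ)`.
* Add, using `volume S = volume (S ∩ Γ) + volume (S ∩ Γᶜ)` (`measure_inter_add_sdiff`) and
  `ofReal (L/3 + m/32) = ofReal (L/3) + ofReal (m/32)`.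
-/

open MeasureTheory Set Module
open scoped ENNReal Pointwise

namespace Vale.Agent.H5.GenK

open Vale.Agent.H76

variable {X : Type*} [NormedAddCommGroup X] [InnerProductSpace ℝ X] [FiniteDimensional ℝ X]
  [MeasurableSpace X] [BorelSpace X]

/-- Measure of a homothetic copy in a two-dimensional space. -/
theorem gk4_homothety (hX : finrank ℝ X = 2) (p : X) (y : ℝ) (A : Set X) :
    volume ((fun x => p + y • (x - p)) '' A) = ENNReal.ofReal (y ^ 2) * volume A := by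
  have h := Measure.addHaar_image_homothety (volume : Measure X) p y A
  rw [hX, abs_of_nonneg (sq_nonneg y)] at h
  rw [← h]
  congr 1
  apply image_congr
  intro a _
  simp [AffineMap.homothety_apply, add_comm]

omit [FiniteDimensional ℝ X] [MeasurableSpace X] [BorelSpace X] in
/-- Cone step: the point at ratio `y` on the segment from a base point `p` carrying a chord of
length `L` to a point of the shadow lies in the level set of height `L * (1 - y)`. -/
theorem gk4_cone_step {T : Set (X × ℝ)} (hTc : Convex ℝ T) {p : X} {L : ℝ} (hp : p ∈ Lev T L)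
    {y : ℝ} (hy0 : 0 ≤ y) (hy1 : y ≤ 1) {s : X} (hs : s ∈ Prod.fst '' T) :
    p + y • (s - p) ∈ Lev T (L * (1 - y)) := by
  have hs0 : s ∈ Lev T 0 := by
    rw [Lev_of_nonpos T le_rfl]
    exact hs
  have h := Lev_combo hTc hy0 (sub_nonneg.2 hy1) (by ring) 0 L
  have hmem : p + y • (s - p) ∈ y • Lev T 0 + (1 - y) • Lev T L := by
    refine ⟨y • s, ⟨s, hs0, rfl⟩, (1 - y) • p, ⟨p, hp, rfl⟩, ?_⟩
    simp only [smul_sub, sub_smul, one_smul]
    abel
  have h2 := h hmem
  have e : y * 0 + (1 - y) * L = L * (1 - y) := by ring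
  rw [e] at h2
  exact h2

theorem gain_lemma (hX : finrank ℝ X = 2) {T : Set (X × ℝ)} (hT : IsCompact T)
    (hTc : Convex ℝ T) {p : X} {L m : ℝ} (hL : 0 < L) (hm0 : 0 ≤ m) (hmL : m ≤ L / 2)
    (hp : p ∈ Lev T L) {Γ : Set X} (hΓm : MeasurableSet Γ)
    (hΓ : ∀ x ∈ Γ, ∀ a : ℝ, 0 ≤ a → p + a • (x - p) ∈ Γ)
    (hΓc : ∀ x, x ∉ Γ → ∀ a : ℝ, 0 < a → p + a • (x - p) ∉ Γ)
    (hbad : ∀ x ∈ Prod.fst '' T ∩ Γ, ∀ θ : ℝ, 0 ≤ θ → θ ≤ 1 / 2 →
      p + θ • (x - p) ∈ Lev T (L - (L - m) * θ)) :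
    ENNReal.ofReal (L / 3) * volume (Prod.fst '' T) +
        ENNReal.ofReal (m / 32) * volume (Prod.fst '' T ∩ Γ) ≤
      (volume.prod volume) T := by
  have hL0 : L ≠ 0 := hL.ne'
  have hsplitT : (volume.prod volume) (T ∩ Γ ×ˢ (univ : Set ℝ)) +
      (volume.prod volume) (T ∩ Γᶜ ×ˢ (univ : Set ℝ)) = (volume.prod volume) T := by
    have h := measure_inter_add_sdiff (μ := (volume.prod volume : Measure (X × ℝ))) T
      (hΓm.prod (MeasurableSet.univ : MeasurableSet (univ : Set ℝ)))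
    have e : T \ Γ ×ˢ (univ : Set ℝ) = T ∩ Γᶜ ×ˢ (univ : Set ℝ) := by
      ext ⟨x, z⟩
      simp
    rw [e] at h
    exact h
  have hsplitS : volume (Prod.fst '' T ∩ Γ) + volume (Prod.fst '' T ∩ Γᶜ) =
      volume (Prod.fst '' T) := by
    have h := measure_inter_add_sdiff (μ := (volume : Measure X)) (Prod.fst '' T) hΓm
    rwa [sdiff_eq] at h
  have hΓpart : ENNReal.ofReal (L / 3 + m / 32) * volume (Prod.fst '' T ∩ Γ) ≤
      (volume.prod volume) (T ∩ Γ ×ˢ (univ : Set ℝ)) := by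
    rw [layer_cake volume hT hTc hΓm]
    refine gain_integral (fun h => volume (Lev T h ∩ Γ)) (volume (Prod.fst '' T ∩ Γ)) hL hm0 hmL
      ?_ ?_
    · intro h h0 hh
      have hhL : h < L := by linarith
      have hy0 : 0 ≤ 1 - h / L := by
        rw [sub_nonneg, div_le_one hL]
        exact hhL.le
      have hy1 : 1 - h / L ≤ 1 := by
        have : 0 ≤ h / L := div_nonneg h0.le hL.le
        linarith
      rw [← gk4_homothety hX p (1 - h / L) (Prod.fst '' T ∩ Γ)]
      show _ ≤ volume (Lev T h ∩ Γ)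
      apply measure_mono
      rintro _ ⟨x, ⟨hxS, hxΓ⟩, rfl⟩
      refine ⟨?_, hΓ x hxΓ _ hy0⟩
      have h3 := gk4_cone_step hTc hp hy0 hy1 hxS
      have e : L * (1 - (1 - h / L)) = h := by
        field_simp
        ring
      rwa [e] at h3
    · intro h hh hhL
      have hLm : 0 < L - m := by linarith
      have hθ0 : 0 ≤ (L - h) / (L - m) := div_nonneg (by linarith) hLm.le
      have hθ1 : (L - h) / (L - m) ≤ 1 / 2 := by
        rw [div_le_iff₀ hLm]
        linarith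
      rw [← gk4_homothety hX p ((L - h) / (L - m)) (Prod.fst '' T ∩ Γ)]
      show _ ≤ volume (Lev T h ∩ Γ)
      apply measure_mono
      rintro _ ⟨x, ⟨hxS, hxΓ⟩, rfl⟩
      refine ⟨?_, hΓ x hxΓ _ hθ0⟩
      have h3 := hbad x ⟨hxS, hxΓ⟩ ((L - h) / (L - m)) hθ0 hθ1
      have e : L - (L - m) * ((L - h) / (L - m)) = h := by
        have hne : L - m ≠ 0 := hLm.ne'
        field_simp
        ring
      rwa [e] at h3
  have hΓcpart : ENNReal.ofReal (L / 3) * volume (Prod.fst '' T ∩ Γᶜ) ≤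
      (volume.prod volume) (T ∩ Γᶜ ×ˢ (univ : Set ℝ)) := by
    rw [layer_cake volume hT hTc hΓm.compl]
    refine cone_integral (fun h => volume (Lev T h ∩ Γᶜ)) (volume (Prod.fst '' T ∩ Γᶜ)) hL ?_
    intro h h0 hh
    rcases hh.lt_or_eq with hhL | hhL
    · have hy0 : 0 < 1 - h / L := by
        rw [sub_pos, div_lt_one hL]
        exact hhL
      have hy1 : 1 - h / L ≤ 1 := by
        have : 0 ≤ h / L := div_nonneg h0.le hL.le
        linarith
      rw [← gk4_homothety hX p (1 - h / L) (Prod.fst '' T ∩ Γᶜ)]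
      show _ ≤ volume (Lev T h ∩ Γᶜ)
      apply measure_mono
      rintro _ ⟨x, ⟨hxS, hxΓ⟩, rfl⟩
      refine ⟨?_, hΓc x hxΓ _ hy0⟩
      have h3 := gk4_cone_step hTc hp hy0.le hy1 hxS
      have e : L * (1 - (1 - h / L)) = h := by
        field_simp
        ring
      rwa [e] at h3
    · rw [hhL]
      have e : (1 - L / L) ^ 2 = 0 := by
        rw [div_self hL0]
        norm_num
      rw [e, ENNReal.ofReal_zero, zero_mul]
      exact bot_le
  calc ENNReal.ofReal (L / 3) * volume (Prod.fst '' T) +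
        ENNReal.ofReal (m / 32) * volume (Prod.fst '' T ∩ Γ)
      = ENNReal.ofReal (L / 3 + m / 32) * volume (Prod.fst '' T ∩ Γ) +
          ENNReal.ofReal (L / 3) * volume (Prod.fst '' T ∩ Γᶜ) := by
        rw [← hsplitS, ENNReal.ofReal_add (div_nonneg hL.le (by norm_num))
          (div_nonneg hm0 (by norm_num))]
        ring
    _ ≤ (volume.prod volume) (T ∩ Γ ×ˢ (univ : Set ℝ)) +
          (volume.prod volume) (T ∩ Γᶜ ×ˢ (univ : Set ℝ)) := add_le_add hΓpart hΓcpart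
    _ = (volume.prod volume) T := hsplitT

end Vale.Agent.H5.GenK
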