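import Mathlib

/-!
# GK-5 (`ray_exit`): the exit point of a ray from a compact set

`S` compact, `x ∈ S`, `x ≠ p`.  Then there is `y ∈ S` on the ray from `p` through `x`, beyond or
at `x` (`x = p + t • (y - p)` with `0 < t ≤ 1`), such that the ray leaves `S` for good after `y`.

Proof.  `A := {τ : ℝ | 1 ≤ τ ∧ p + τ • (x - p) ∈ S}` is closed (preimage of the closed set `S`
under a continuous map, intersected with `Ici 1`), bounded (`S` is bounded and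
`‖τ • (x - p)‖ = τ ‖x - p‖` with `‖x - p‖ > 0`), and contains `1`; let `τ₀` be its greatest
element (`IsCompact.exists_isGreatest`), `y := p + τ₀ • (x - p)`, `t := τ₀⁻¹`.  For `τ > 1`:
`p + τ • (y - p) = p + (τ τ₀) • (x - p)` with `τ τ₀ > τ₀`, so it is not in `S`.
-/

open Set

namespace Vale.Agent.H5.GenK

variable {X : Type*} [NormedAddCommGroup X] [NormedSpace ℝ X]

theorem ray_exit {S : Set X} (hS : IsCompact S) {p x : X} (hx : x ∈ S) (hxp : x ≠ p) :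
    ∃ y ∈ S, ∃ t : ℝ, 0 < t ∧ t ≤ 1 ∧ x = p + t • (y - p) ∧
      ∀ τ : ℝ, 1 < τ → p + τ • (y - p) ∉ S := by
  have hxp' : 0 < ‖x - p‖ := norm_pos_iff.mpr (sub_ne_zero.mpr hxp)
  have hcont : Continuous fun τ : ℝ => p + τ • (x - p) := by fun_prop
  have hclosed : IsClosed {τ : ℝ | 1 ≤ τ ∧ p + τ • (x - p) ∈ S} := by
    have h1 : IsClosed {τ : ℝ | 1 ≤ τ} := isClosed_Ici
    have h2 : IsClosed {τ : ℝ | p + τ • (x - p) ∈ S} := hS.isClosed.preimage hcont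
    exact h1.inter h2
  obtain ⟨M, hM⟩ := hS.isBounded.exists_norm_le
  have hsub : {τ : ℝ | 1 ≤ τ ∧ p + τ • (x - p) ∈ S} ⊆ Icc 1 ((M + ‖p‖) / ‖x - p‖) := by
    intro τ hτ
    obtain ⟨h1, h2⟩ := hτ
    refine ⟨h1, ?_⟩
    rw [le_div_iff₀ hxp']
    have h3 := hM _ h2
    have h4 : ‖τ • (x - p)‖ = τ * ‖x - p‖ := by
      rw [norm_smul, Real.norm_of_nonneg (by linarith)]
    have h5 : ‖τ • (x - p)‖ ≤ ‖p + τ • (x - p)‖ + ‖p‖ := by
      have h6 : τ • (x - p) = (p + τ • (x - p)) - p := by abel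
      calc ‖τ • (x - p)‖ = ‖(p + τ • (x - p)) - p‖ := by rw [← h6]
        _ ≤ ‖p + τ • (x - p)‖ + ‖p‖ := norm_sub_le _ _
    linarith
  have hcomp : IsCompact {τ : ℝ | 1 ≤ τ ∧ p + τ • (x - p) ∈ S} :=
    isCompact_Icc.of_isClosed_subset hclosed hsub
  have hne : {τ : ℝ | 1 ≤ τ ∧ p + τ • (x - p) ∈ S}.Nonempty := by
    refine ⟨1, le_refl 1, ?_⟩
    have : p + (1 : ℝ) • (x - p) = x := by
      rw [one_smul]
      abel
    rw [this]
    exact hx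
  obtain ⟨τ₀, hτ₀, hgreat⟩ := hcomp.exists_isGreatest hne
  obtain ⟨h1, hyS⟩ := hτ₀
  have hτ₀pos : 0 < τ₀ := by linarith
  refine ⟨p + τ₀ • (x - p), hyS, τ₀⁻¹, inv_pos.mpr hτ₀pos, inv_le_one_of_one_le₀ h1, ?_, ?_⟩
  · have h2 : p + τ₀ • (x - p) - p = τ₀ • (x - p) := by abel
    rw [h2, smul_smul, inv_mul_cancel₀ hτ₀pos.ne', one_smul]
    abel
  · intro τ hτ hmem
    have h2 : p + τ₀ • (x - p) - p = τ₀ • (x - p) := by abel
    rw [h2, smul_smul] at hmem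
    have h3 : τ * τ₀ ∈ {τ : ℝ | 1 ≤ τ ∧ p + τ • (x - p) ∈ S} := by
      refine ⟨?_, hmem⟩
      nlinarith
    have h4 := hgreat h3
    nlinarith

end Vale.Agent.H5.GenK
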