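import Vale.Agent.H5.GenK.RayConcave
import Vale.Agent.H5.GenK.ConeSet
import Vale.Agent.H5.GenK.Gain
import Vale.Agent.H5.GenK.RayExit

/-!
# GK-6 (`good_ray`): an almost extremal chord has a good ray (STEP 1 of LEMMA S)

`T ⊆ X × ℝ` compact convex, `X` two-dimensional, `S = Prod.fst '' T`,
`closedBall cX ρ ⊆ S ⊆ closedBall cX R`, a chord of length `≥ L` over `p` (`p ∈ Lev T L`) which
is `δ`-extremal: `(3 - δ) vol T < L |S|`, with `0 < δ ≤ ρ^2/(48 R^2)`.  Put
`m := 24 δ L (R/ρ)^2`.  Then there is an exit point `y ∈ S` of a ray from `p`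
(`p + τ • (y - p) ∉ S` for `τ > 1`) with `‖y - p‖ ≥ ρ/2`, whose ray passes within `ρ/2` of `cX`,
such that the chord over `p + t • (y - p)` is `≤ L (1 - t) + m` for all `t ∈ [0, 1]`.

Proof by contradiction.  `m ≤ L/2` by `hδ`, `m > 0`.  `Q := closedBall cX (ρ/2)`,
`Γ := coneOver p Q` (measurable: `coneOver_measurable`, `isCompact_closedBall`; invariance:
`coneOver_smul`, `coneOver_smul_compl`).  Suppose no `y` as claimed exists.

(a) `hbad` of `gain_lemma`: let `x ∈ S ∩ Γ`, `θ ∈ [0, 1/2]`.  If `x = p`: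
`p + θ • (p - p) = p ∈ Lev T L ⊆ Lev T (L - (L - m) θ)` (`Lev_anti`).  Otherwise `ray_exit`
gives `y ∈ S`, `0 < t ≤ 1`, `x = p + t • (y - p)`, exit.  `x ∈ Γ`: `x = p + a • (q - p)`,
`q ∈ Q`, `a > 0` (as `x ≠ p`), so `q = p + (t/a) • (y - p)`.  With `w := ‖y - p‖⁻¹ • (y - p)`
the point `q + (ρ/2) • w` lies in `closedBall cX ρ ⊆ S` and equals
`p + (t/a + ρ/(2 ‖y - p‖)) • (y - p)`, so by exit `t/a + ρ/(2‖y - p‖) ≤ 1`; hence
`ρ/2 ≤ ‖y - p‖`, and `a' := t/a ≥ 0` has `‖p + a' • (y - p) - cX‖ = ‖q - cX‖ ≤ ρ/2`.  By the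
assumption there are `t₁ ∈ [0,1]`, `z, z'` with `(p + t₁ • (y - p), z), (…, z') ∈ T` and
`z' - z > L (1 - t₁) + m`, i.e. `p + t₁ • (y - p) ∈ Lev T (L (1 - t₁) + m)`.  `ray_concave` with
`t := θ * t ≤ 1/2`: `p + θ • (x - p) = p + (θ t) • (y - p) ∈ Lev T (L - (L - m) θ t)
⊆ Lev T (L - (L - m) θ)`.

(b) `gain_lemma`: `ofReal (L/3) * |S| + ofReal (m/32) * |S ∩ Γ| ≤ vol T`.  `Q ⊆ S ∩ Γ`
(`subset_coneOver`), `|S| ≤ |closedBall cX R| = ofReal ((2R/ρ)^2) * |Q|`
(`Measure.addHaar_closedBall_mul` or `addHaar_closedBall`, `finrank = 2`), `0 < |Q| < ∞`.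
With `hext`: `(3 - δ)(L/3 |S| + (m/32)|Q|) < L |S|`, so
`(3 - δ)(m/32) |Q| < (δ L/3) |S| ≤ (δ L/3)(2R/ρ)^2 |Q|`; as `3 - δ ≥ 2`:
`m < (64/3) δ L (R/ρ)^2 < m`.  Contradiction.  (Convert to real numbers with `toReal`;
`vol T < ∞`, `|S| < ∞` by compactness.)
-/

open MeasureTheory Set Module
open scoped ENNReal Pointwise

namespace Vale.Agent.H5.GenK

open Vale.Agent.H76

variable {X : Type*} [NormedAddCommGroup X] [InnerProductSpace ℝ X] [FiniteDimensional ℝ X]
  [MeasurableSpace X] [BorelSpace X]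

theorem good_ray (hX : finrank ℝ X = 2) {T : Set (X × ℝ)} (hT : IsCompact T)
    (hTc : Convex ℝ T) {p cX : X} {L ρ R δ : ℝ} (hL : 0 < L) (hρ : 0 < ρ) (hρR : ρ ≤ R)
    (hδ0 : 0 < δ) (hδ : δ ≤ ρ ^ 2 / (48 * R ^ 2)) (hp : p ∈ Lev T L)
    (hin : Metric.closedBall cX ρ ⊆ Prod.fst '' T)
    (hout : Prod.fst '' T ⊆ Metric.closedBall cX R)
    (hext : ENNReal.ofReal (3 - δ) * (volume.prod volume) T <
      ENNReal.ofReal L * volume (Prod.fst '' T)) :
    ∃ y ∈ Prod.fst '' T, ρ / 2 ≤ ‖y - p‖ ∧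
      (∀ τ : ℝ, 1 < τ → p + τ • (y - p) ∉ Prod.fst '' T) ∧
      (∃ a : ℝ, 0 ≤ a ∧ ‖p + a • (y - p) - cX‖ ≤ ρ / 2) ∧
      ∀ t : ℝ, 0 ≤ t → t ≤ 1 → ∀ z z' : ℝ, (p + t • (y - p), z) ∈ T →
        (p + t • (y - p), z') ∈ T → z' - z ≤ L * (1 - t) + 24 * δ * L * (R / ρ) ^ 2 := by
  by_contra hcon
  push Not at hcon
  have hR : 0 < R := lt_of_lt_of_le hρ hρR
  have hRρ : 0 < R / ρ := div_pos hR hρ
  obtain ⟨m, hm⟩ : ∃ m : ℝ, m = 24 * δ * L * (R / ρ) ^ 2 := ⟨_, rfl⟩
  rw [← hm] at hcon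
  have hm0 : 0 < m := by rw [hm]; positivity
  have hδR : δ * (48 * R ^ 2) ≤ ρ ^ 2 := by
    rwa [le_div_iff₀ (by positivity)] at hδ
  have hδ' : δ * (R / ρ) ^ 2 ≤ 1 / 48 := by
    rw [div_pow, ← mul_div_assoc, div_le_iff₀ (by positivity)]
    linarith
  have hmL : m ≤ L / 2 := by
    have h1 : m = 24 * L * (δ * (R / ρ) ^ 2) := by rw [hm]; ring
    rw [h1]
    nlinarith
  have hLm : 0 ≤ L - m := by linarith
  have hδ1 : δ ≤ 1 / 48 := by
    have h2 : ρ ^ 2 ≤ R ^ 2 := by nlinarith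
    have h3 : (48 * δ - 1) * R ^ 2 ≤ 0 := by nlinarith
    by_contra h
    push Not at h
    nlinarith [mul_pos (show 0 < 48 * δ - 1 by linarith) (pow_pos hR 2)]
  have hSc : IsCompact (Prod.fst '' T) := hT.image continuous_fst
  have hQc : IsCompact (Metric.closedBall cX (ρ / 2)) := isCompact_closedBall cX (ρ / 2)
  have hΓm : MeasurableSet (coneOver p (Metric.closedBall cX (ρ / 2))) := coneOver_measurable hQc
  have hbad : ∀ x ∈ Prod.fst '' T ∩ coneOver p (Metric.closedBall cX (ρ / 2)), ∀ θ : ℝ, 0 ≤ θ →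
      θ ≤ 1 / 2 → p + θ • (x - p) ∈ Lev T (L - (L - m) * θ) := by
    intro x hx θ hθ0 hθ1
    by_cases hxp : x = p
    · rw [hxp, sub_self, smul_zero, add_zero]
      exact Lev_anti T (by nlinarith [mul_nonneg hLm hθ0]) hp
    · obtain ⟨y, hyS, t, ht0, ht1, hxy, hexit⟩ := ray_exit hSc hx.1 hxp
      obtain ⟨q, hqQ, a, ha0, hxa⟩ := hx.2
      have hyp : y ≠ p := by
        intro hyp
        apply hxp
        rw [hxy, hyp]
        simp
      have hapos : 0 < a := by
        rcases ha0.lt_or_eq with h | h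
        · exact h
        · exfalso
          apply hxp
          rw [hxa, ← h]
          simp
      have hnorm : 0 < ‖y - p‖ := norm_pos_iff.2 (sub_ne_zero.2 hyp)
      have hq : q = p + (t / a) • (y - p) := by
        have h1 : a • (q - p) = t • (y - p) := by
          have h0 : p + a • (q - p) = p + t • (y - p) := by rw [← hxa, ← hxy]
          exact add_left_cancel h0
        have h2 : q - p = (t / a) • (y - p) := by
          rw [div_eq_inv_mul, mul_smul, ← h1, smul_smul, inv_mul_cancel₀ hapos.ne', one_smul]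
        rw [← h2]
        abel
      have hq' : ‖q - cX‖ ≤ ρ / 2 := by
        have h0 := hqQ
        rw [Metric.mem_closedBall, dist_eq_norm] at h0
        exact h0
      have hmem : p + (t / a + ρ / (2 * ‖y - p‖)) • (y - p) ∈ Prod.fst '' T := by
        apply hin
        rw [Metric.mem_closedBall, dist_eq_norm]
        have e : p + (t / a + ρ / (2 * ‖y - p‖)) • (y - p) - cX =
            (q - cX) + (ρ / (2 * ‖y - p‖)) • (y - p) := by
          rw [hq, add_smul]
          abel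
        rw [e]
        have h3 : ‖(ρ / (2 * ‖y - p‖)) • (y - p)‖ = ρ / 2 := by
          rw [norm_smul, Real.norm_of_nonneg (by positivity)]
          field_simp
        calc ‖(q - cX) + (ρ / (2 * ‖y - p‖)) • (y - p)‖
            ≤ ‖q - cX‖ + ‖(ρ / (2 * ‖y - p‖)) • (y - p)‖ := norm_add_le _ _
          _ ≤ ρ / 2 + ρ / 2 := by rw [h3]; linarith
          _ = ρ := by ring
      have hle : t / a + ρ / (2 * ‖y - p‖) ≤ 1 := by
        by_contra h
        push Not at h
        exact hexit _ h hmem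
      have hta : 0 < t / a := div_pos ht0 hapos
      have hρy : ρ / 2 ≤ ‖y - p‖ := by
        have h4 : ρ / (2 * ‖y - p‖) ≤ 1 := by linarith
        rw [div_le_one (by positivity)] at h4
        linarith
      have hnear : ∃ a' : ℝ, 0 ≤ a' ∧ ‖p + a' • (y - p) - cX‖ ≤ ρ / 2 := by
        refine ⟨t / a, hta.le, ?_⟩
        rw [← hq]
        exact hq'
      obtain ⟨t₁, ht₁0, ht₁1, z, z', hz, hz', hzz⟩ := hcon y hyS hρy hexit hnear
      have hlev : p + t₁ • (y - p) ∈ Lev T (L * (1 - t₁) + m) := ⟨z, z', hz, hz', hzz.le⟩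
      have hθt : θ * t ≤ θ := by nlinarith
      have hrc := ray_concave hTc hm0.le hp hyS ht₁0 ht₁1 hlev (t := θ * t)
        (mul_nonneg hθ0 ht0.le) (by linarith)
      have e : p + θ • (x - p) = p + (θ * t) • (y - p) := by
        rw [hxy]
        simp [mul_smul]
      rw [e]
      exact Lev_anti T (by nlinarith [mul_le_mul_of_nonneg_left hθt hLm]) hrc
  have hgain := gain_lemma hX hT hTc hL hm0.le hmL hp hΓm
    (fun x hx a ha => coneOver_smul hx ha) (fun x hx a ha => coneOver_smul_compl hx ha) hbad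
  have hQS : Metric.closedBall cX (ρ / 2) ⊆
      Prod.fst '' T ∩ coneOver p (Metric.closedBall cX (ρ / 2)) := fun x hx =>
    ⟨hin (Metric.closedBall_subset_closedBall (by linarith) hx), subset_coneOver p _ hx⟩
  have hQpos : 0 < volume (Metric.closedBall cX (ρ / 2)) :=
    Metric.measure_closedBall_pos volume cX (by positivity)
  have hQfin : volume (Metric.closedBall cX (ρ / 2)) < ⊤ := measure_closedBall_lt_top
  have hSfin : volume (Prod.fst '' T) < ⊤ := hSc.measure_lt_top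
  have hTfin : (volume.prod volume) T < ⊤ := hT.measure_lt_top
  have hSQ : volume (Prod.fst '' T) ≤
      ENNReal.ofReal ((2 * R / ρ) ^ 2) * volume (Metric.closedBall cX (ρ / 2)) := by
    calc volume (Prod.fst '' T) ≤ volume (Metric.closedBall cX R) := measure_mono hout
      _ = volume (Metric.closedBall cX ((2 * R / ρ) * (ρ / 2))) := by
          congr 2
          field_simp
      _ = ENNReal.ofReal ((2 * R / ρ) ^ finrank ℝ X) *
            volume (Metric.closedBall (0 : X) (ρ / 2)) :=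
          Measure.addHaar_closedBall_mul volume cX (by positivity) (by positivity)
      _ = ENNReal.ofReal ((2 * R / ρ) ^ 2) * volume (Metric.closedBall cX (ρ / 2)) := by
          rw [hX, Measure.addHaar_closedBall_center volume cX]
  have hgain' : ENNReal.ofReal (L / 3) * volume (Prod.fst '' T) +
      ENNReal.ofReal (m / 32) * volume (Metric.closedBall cX (ρ / 2)) ≤
      (volume.prod volume) T :=
    le_trans (add_le_add le_rfl (mul_le_mul' le_rfl (measure_mono hQS))) hgain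
  obtain ⟨s, hs⟩ : ∃ s : ℝ, s = (volume (Prod.fst '' T)).toReal := ⟨_, rfl⟩
  obtain ⟨qv, hqv⟩ : ∃ qv : ℝ, qv = (volume (Metric.closedBall cX (ρ / 2))).toReal := ⟨_, rfl⟩
  obtain ⟨v, hv⟩ : ∃ v : ℝ, v = ((volume.prod volume) T).toReal := ⟨_, rfl⟩
  have hq0 : 0 < qv := by
    rw [hqv]
    exact ENNReal.toReal_pos hQpos.ne' hQfin.ne
  have h1 : L / 3 * s + m / 32 * qv ≤ v := by
    have h0 := ENNReal.toReal_mono hTfin.ne hgain'
    rw [ENNReal.toReal_add (ENNReal.mul_ne_top ENNReal.ofReal_ne_top hSfin.ne)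
      (ENNReal.mul_ne_top ENNReal.ofReal_ne_top hQfin.ne), ENNReal.toReal_mul, ENNReal.toReal_mul,
      ENNReal.toReal_ofReal (by positivity), ENNReal.toReal_ofReal (by positivity)] at h0
    rw [hs, hqv, hv]
    exact h0
  have h2 : (3 - δ) * v < L * s := by
    have h0 := ENNReal.toReal_strict_mono (ENNReal.mul_ne_top ENNReal.ofReal_ne_top hSfin.ne) hext
    rw [ENNReal.toReal_mul, ENNReal.toReal_mul, ENNReal.toReal_ofReal (by linarith),
      ENNReal.toReal_ofReal hL.le] at h0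
    rw [hs, hv]
    exact h0
  have h3 : s ≤ (2 * R / ρ) ^ 2 * qv := by
    have h0 := ENNReal.toReal_mono (ENNReal.mul_ne_top ENNReal.ofReal_ne_top hQfin.ne) hSQ
    rw [ENNReal.toReal_mul, ENNReal.toReal_ofReal (by positivity)] at h0
    rw [hs, hqv]
    exact h0
  have e1 : (2 * R / ρ) ^ 2 * δ * L = m / 6 := by
    rw [hm]
    ring
  have h4 : (3 - δ) * (L / 3 * s + m / 32 * qv) < L * s :=
    lt_of_le_of_lt (mul_le_mul_of_nonneg_left h1 (by linarith)) h2
  have h5 : (3 - δ) * (m / 32) * qv < δ * L / 3 * s := by nlinarith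
  have h6 : δ * L / 3 * s ≤ δ * L / 3 * ((2 * R / ρ) ^ 2 * qv) :=
    mul_le_mul_of_nonneg_left h3 (by positivity)
  have h7 : δ * L / 3 * ((2 * R / ρ) ^ 2 * qv) = m / 18 * qv := by
    have h0 : δ * L / 3 * ((2 * R / ρ) ^ 2 * qv) = ((2 * R / ρ) ^ 2 * δ * L) / 3 * qv := by ring
    rw [h0, e1]
    ring
  have h8 : (3 - δ) * (m / 32) * qv < m / 18 * qv := by linarith
  have h9 : (3 - δ) * (m / 32) < m / 18 := lt_of_mul_lt_mul_right h8 hq0.le
  nlinarith

end Vale.Agent.H5.GenK
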