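import Mathlib

/-!
# GK-12 (`gram_lower`): the Gram determinant of two unit vectors dominates a 2 × 2 minor

For unit vectors `ξ₁, ξ₂` and an orthonormal pair `(w, u)` of a real inner product space:
`(⟪ξ₁, w⟫ ⟪ξ₂, u⟫ - ⟪ξ₁, u⟫ ⟪ξ₂, w⟫)^2 ≤ 1 - ⟪ξ₁, ξ₂⟫^2`.

Proof.  Write `a := ⟪ξ₁, w⟫`, `b := ⟪ξ₁, u⟫`, `a' := ⟪ξ₂, w⟫`, `b' := ⟪ξ₂, u⟫` and the remainders
`r₁ := ξ₁ - a • w - b • u`, `r₂ := ξ₂ - a' • w - b' • u` (orthogonal to `w` and `u`).  Then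
`1 = a^2 + b^2 + ‖r₁‖^2`, `1 = a'^2 + b'^2 + ‖r₂‖^2`, `⟪ξ₁, ξ₂⟫ = a a' + b b' + ⟪r₁, r₂⟫`, and
`1 - ⟪ξ₁, ξ₂⟫^2 - (a b' - b a')^2 = ‖a' • r₁ - a • r₂‖^2 + ‖b' • r₁ - b • r₂‖^2
 + (‖r₁‖^2 ‖r₂‖^2 - ⟪r₁, r₂⟫^2) ≥ 0` (Lagrange identity in `ℝ × ℝ × E`; the last bracket is
`≥ 0` by Cauchy–Schwarz, `real_inner_mul_inner_self_le` / `abs_real_inner_le_norm`).
Equivalently: with `x := ‖r₁‖^2`, `y := ‖r₂‖^2`, `g := ⟪r₁, r₂⟫`, `g^2 ≤ x y`, the claim is the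
polynomial inequality
`(a b' - b a')^2 + (a a' + b b' + g)^2 ≤ (a^2 + b^2 + x)(a'^2 + b'^2 + y)`.
-/

namespace Vale.Agent.H5.GenK

variable {E : Type*} [NormedAddCommGroup E] [InnerProductSpace ℝ E]

/-- `‖s • p - t • q‖^2 ≥ 0`, expanded. -/
theorem gk12_sq (p q : E) (s t : ℝ) :
    0 ≤ s ^ 2 * inner ℝ p p - 2 * s * t * inner ℝ p q + t ^ 2 * inner ℝ q q := by
  have h : 0 ≤ inner ℝ (s • p - t • q) (s • p - t • q) := real_inner_self_nonneg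
  have e : inner ℝ (s • p - t • q) (s • p - t • q)
      = s ^ 2 * inner ℝ p p - 2 * s * t * inner ℝ p q + t ^ 2 * inner ℝ q q := by
    simp only [inner_sub_left, inner_sub_right, real_inner_smul_left, real_inner_smul_right]
    rw [real_inner_comm p q]
    ring
  linarith

/-- Inner products of the remainders after removing the `w`, `u` components. -/
theorem gk12_rem {w u : E} (hw : ‖w‖ = 1) (hu : ‖u‖ = 1) (hwu : inner ℝ w u = 0) (p q : E) :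
    inner ℝ (p - inner ℝ p w • w - inner ℝ p u • u) (q - inner ℝ q w • w - inner ℝ q u • u)
      = inner ℝ p q - inner ℝ p w * inner ℝ q w - inner ℝ p u * inner ℝ q u := by
  have hww : inner ℝ w w = 1 := by rw [real_inner_self_eq_norm_sq, hw]; norm_num
  have huu : inner ℝ u u = 1 := by rw [real_inner_self_eq_norm_sq, hu]; norm_num
  have huw : inner ℝ u w = 0 := by rw [real_inner_comm]; exact hwu
  simp only [inner_sub_left, inner_sub_right, real_inner_smul_left, real_inner_smul_right,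
    hww, huu, hwu, huw]
  rw [real_inner_comm q w, real_inner_comm q u]
  ring

theorem gram_lower {w u ξ₁ ξ₂ : E} (hw : ‖w‖ = 1) (hu : ‖u‖ = 1) (hwu : inner ℝ w u = 0)
    (h1 : ‖ξ₁‖ = 1) (h2 : ‖ξ₂‖ = 1) :
    (inner ℝ ξ₁ w * inner ℝ ξ₂ u - inner ℝ ξ₁ u * inner ℝ ξ₂ w) ^ 2 ≤
      1 - (inner ℝ ξ₁ ξ₂) ^ 2 := by
  have h11 : inner ℝ ξ₁ ξ₁ = 1 := by rw [real_inner_self_eq_norm_sq, h1]; norm_num
  have h22 : inner ℝ ξ₂ ξ₂ = 1 := by rw [real_inner_self_eq_norm_sq, h2]; norm_num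
  have hx := gk12_rem hw hu hwu ξ₁ ξ₁
  have hy := gk12_rem hw hu hwu ξ₂ ξ₂
  have hg := gk12_rem hw hu hwu ξ₁ ξ₂
  rw [h11] at hx
  rw [h22] at hy
  have h5 := real_inner_mul_inner_self_le (ξ₁ - inner ℝ ξ₁ w • w - inner ℝ ξ₁ u • u)
    (ξ₂ - inner ℝ ξ₂ w • w - inner ℝ ξ₂ u • u)
  have h3 := gk12_sq (ξ₁ - inner ℝ ξ₁ w • w - inner ℝ ξ₁ u • u)
    (ξ₂ - inner ℝ ξ₂ w • w - inner ℝ ξ₂ u • u) (inner ℝ ξ₂ w) (inner ℝ ξ₁ w)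
  have h4 := gk12_sq (ξ₁ - inner ℝ ξ₁ w • w - inner ℝ ξ₁ u • u)
    (ξ₂ - inner ℝ ξ₂ w • w - inner ℝ ξ₂ u • u) (inner ℝ ξ₂ u) (inner ℝ ξ₁ u)
  rw [hx, hy, hg] at h5 h3 h4
  nlinarith [h3, h4, h5]

end Vale.Agent.H5.GenK
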