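import Vale.Agent.H5.GenK.Count
import Vale.Agent.H5.GenK.Cover

/-!
# GK-22 (`lemma_P`): the sharp points have a small neighbourhood (LEMMA P (ii))

`K` compact convex in the 3-space `E`, `closedBall c ρ ⊆ K`, `η, s > 0`, `0 < d0 ≤ ρ`,
`d0^2 = 2ρη`.  Then there is a compact `N ⊆ K` with `vol N ≤ (432000 η/(s ρ)) vol K` containing
every point of `K` within `d0` of an (η, s)-sharp point.

Proof.  `V := (volume K).toReal < ∞`.  `Z := {e | Sharp K η s e}`.  By `packing_count` every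
finite `4 d0`-separated `F ⊆ Z` has `|F| * ofReal (s ρ^2 d0/8) ≤ 27 * volume K`, so
`|F| ≤ M := ⌊216 V/(s ρ^2 d0)⌋₊` (`Nat.le_floor`; convert with `ENNReal.toReal`).
`exists_separated_cover Z (r := 4 d0) M` gives `F`.
`N := K ∩ ⋃ e ∈ F, closedBall e (5 d0)`: compact (`IsCompact.inter_right` with a finite union of
closed sets), `N ⊆ K`.  If `Sharp K η s e`, `x ∈ K`, `dist x e ≤ d0`: some `e' ∈ F` has
`dist e e' ≤ 4 d0`, so `dist x e' ≤ 5 d0` and `x ∈ N`.
Volume: `volume N ≤ ∑ e ∈ F, volume (closedBall e (5 d0)) ≤ |F| * ofReal ((10 d0)^3)`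
(`measure_biUnion_finset_le`, `closedBall_volume_le`), and
`|F| * ofReal (1000 d0^3) = |F| * ofReal (s ρ^2 d0/8) * ofReal (8000 d0^2/(s ρ^2))
 ≤ 27 * volume K * ofReal (8000 d0^2/(s ρ^2)) = ofReal (216000 d0^2/(s ρ^2)) * volume K
 = ofReal (432000 η/(s ρ)) * volume K` by `d0^2 = 2ρη`.
-/

open MeasureTheory Set Module
open scoped ENNReal

namespace Vale.Agent.H5.GenK

variable {E : Type*} [NormedAddCommGroup E] [InnerProductSpace ℝ E] [FiniteDimensional ℝ E]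
  [MeasurableSpace E] [BorelSpace E]

theorem lemma_P (hE : finrank ℝ E = 3) {K : Set E} (hK : IsCompact K) (hKc : Convex ℝ K)
    {c : E} {ρ η s d0 : ℝ} (hρ : 0 < ρ) (hin : Metric.closedBall c ρ ⊆ K) (hη : 0 < η)
    (hs : 0 < s) (hd0 : 0 < d0) (hd0ρ : d0 ≤ ρ) (hd : d0 ^ 2 = 2 * ρ * η) :
    ∃ N : Set E, IsCompact N ∧ N ⊆ K ∧
      volume N ≤ ENNReal.ofReal (432000 * η / (s * ρ)) * volume K ∧
      ∀ e, Sharp K η s e → ∀ x ∈ K, dist x e ≤ d0 → x ∈ N := by
  classical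
  obtain ⟨c0, hc0⟩ : ∃ c0 : ℝ, c0 = s * ρ ^ 2 * d0 / 8 := ⟨_, rfl⟩
  have hc0pos : 0 < c0 := by
    rw [hc0]
    positivity
  have hvolK : volume K < ⊤ := hK.measure_lt_top
  have hcard : ∀ F : Finset E, (∀ e ∈ F, Sharp K η s e) →
      (∀ e ∈ F, ∀ e' ∈ F, e ≠ e' → 4 * d0 < dist e e') →
      (F.card : ℝ≥0∞) * ENNReal.ofReal c0 ≤ 27 * volume K := by
    intro F hF1 hF2
    rw [hc0]
    exact packing_count hE hK hKc hρ hin hη hs hd0 hd0ρ hd.ge F hF1 hF2
  obtain ⟨B, hB⟩ : ∃ B : ℕ, ∀ F : Finset E, (∀ e ∈ F, e ∈ {e : E | Sharp K η s e}) →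
      (∀ e ∈ F, ∀ e' ∈ F, e ≠ e' → 4 * d0 < dist e e') → F.card ≤ B := by
    have hfin : 27 * volume K / ENNReal.ofReal c0 < ⊤ := by
      apply ENNReal.div_lt_top
      · exact ENNReal.mul_ne_top (by simp) hvolK.ne
      · exact (ENNReal.ofReal_pos.mpr hc0pos).ne'
    obtain ⟨B, hB⟩ := ENNReal.exists_nat_gt hfin.ne
    refine ⟨B, fun F hF1 hF2 => ?_⟩
    have h1 : (F.card : ℝ≥0∞) ≤ 27 * volume K / ENNReal.ofReal c0 := by
      rw [ENNReal.le_div_iff_mul_le (Or.inl (ENNReal.ofReal_pos.mpr hc0pos).ne')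
        (Or.inl ENNReal.ofReal_ne_top)]
      exact hcard F hF1 hF2
    have h3 : (F.card : ℝ≥0∞) < (B : ℝ≥0∞) := lt_of_le_of_lt h1 hB
    exact_mod_cast h3.le
  obtain ⟨F, hF1, hF2, hcover⟩ := exists_separated_cover {e : E | Sharp K η s e}
    (r := 4 * d0) (by positivity) B hB
  refine ⟨K ∩ ⋃ e ∈ F, Metric.closedBall e (5 * d0), ?_, Set.inter_subset_left, ?_, ?_⟩
  · exact hK.inter_right (isClosed_biUnion_finset (fun e _ => Metric.isClosed_closedBall))
  · have hball : ∀ e ∈ F, volume (Metric.closedBall e (5 * d0)) ≤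
        ENNReal.ofReal ((2 * (5 * d0)) ^ 3) :=
      fun e _ => closedBall_volume_le hE e (by positivity)
    have h1 : volume (K ∩ ⋃ e ∈ F, Metric.closedBall e (5 * d0)) ≤
        (F.card : ℝ≥0∞) * ENNReal.ofReal ((2 * (5 * d0)) ^ 3) := by
      calc volume (K ∩ ⋃ e ∈ F, Metric.closedBall e (5 * d0))
          ≤ volume (⋃ e ∈ F, Metric.closedBall e (5 * d0)) := measure_mono Set.inter_subset_right
        _ ≤ ∑ e ∈ F, volume (Metric.closedBall e (5 * d0)) := measure_biUnion_finset_le F _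
        _ ≤ ∑ e ∈ F, ENNReal.ofReal ((2 * (5 * d0)) ^ 3) := Finset.sum_le_sum hball
        _ = (F.card : ℝ≥0∞) * ENNReal.ofReal ((2 * (5 * d0)) ^ 3) := by
            rw [Finset.sum_const, nsmul_eq_mul]
    have e1 : ENNReal.ofReal ((2 * (5 * d0)) ^ 3) =
        ENNReal.ofReal c0 * ENNReal.ofReal (16000 * η / (s * ρ)) := by
      rw [← ENNReal.ofReal_mul hc0pos.le]
      congr 1
      have h5 : (2 * (5 * d0)) ^ 3 = 1000 * d0 * d0 ^ 2 := by ring
      rw [h5, hd, hc0]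
      field_simp
      ring
    have e2 : ENNReal.ofReal (432000 * η / (s * ρ)) =
        27 * ENNReal.ofReal (16000 * η / (s * ρ)) := by
      have h6 : (432000 * η / (s * ρ)) = 27 * (16000 * η / (s * ρ)) := by ring
      rw [h6, ENNReal.ofReal_mul (by norm_num)]
      norm_num
    calc volume (K ∩ ⋃ e ∈ F, Metric.closedBall e (5 * d0))
        ≤ (F.card : ℝ≥0∞) * ENNReal.ofReal ((2 * (5 * d0)) ^ 3) := h1
      _ = ((F.card : ℝ≥0∞) * ENNReal.ofReal c0) * ENNReal.ofReal (16000 * η / (s * ρ)) := by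
          rw [e1, mul_assoc]
      _ ≤ (27 * volume K) * ENNReal.ofReal (16000 * η / (s * ρ)) :=
          mul_le_mul' (hcard F hF1 hF2) le_rfl
      _ = ENNReal.ofReal (432000 * η / (s * ρ)) * volume K := by
          rw [e2]
          ring
  · intro e he x hx hxe
    obtain ⟨e', he'F, hee'⟩ := hcover e he
    refine ⟨hx, ?_⟩
    simp only [Set.mem_iUnion, Metric.mem_closedBall, exists_prop]
    refine ⟨e', he'F, ?_⟩
    calc dist x e' ≤ dist x e + dist e e' := dist_triangle _ _ _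
      _ ≤ d0 + 4 * d0 := add_le_add hxe hee'
      _ = 5 * d0 := by ring

end Vale.Agent.H5.GenK
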