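import Mathlib

/-!
# GK-11 (`normal_lower`): the normal of such a supporting plane is not orthogonal to `u`

Setting of `support_line`, with `closedBall c ρ ⊆ K ⊆ closedBall c R`, `e0 ∈ K`, `(w, u)`
orthonormal, `0 ≤ η ≤ R`, and the plane `e0 + ℝ w + ℝ u` passes within `ρ/2` of `c` (`hnear`).
If the unit vector `ξ` is orthogonal to `w + sg • u` and `K` lies in the half-space
`⟪ξ, y - (e0 + η • u)⟫ ≤ 0`, then `|⟪ξ, u⟫| ≥ ρ / (6 R (1 + |sg|))`.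

Proof.  `y := c + ρ • ξ ∈ closedBall c ρ ⊆ K`, so `ρ + ⟪ξ, c - ê⟫ ≤ 0` with `ê := e0 + η • u`,
i.e. `ρ ≤ ⟪ξ, ê - c⟫`.  Let `c'' := e0 + t₀ • w + z₀ • u`, `‖c'' - c‖ ≤ ρ/2`:
`⟪ξ, ê - c⟫ = ⟪ξ, ê - c''⟫ + ⟪ξ, c'' - c⟫ ≤ ⟪ξ, ê - c''⟫ + ρ/2` (Cauchy–Schwarz, `‖ξ‖ = 1`).
`ê - c'' = -t₀ • w + (η - z₀) • u` and `⟪ξ, w⟫ = -sg ⟪ξ, u⟫` (from `hξl`), so
`⟪ξ, ê - c''⟫ = ⟪ξ, u⟫ (t₀ sg + η - z₀)`.  Hence `ρ/2 ≤ |⟪ξ, u⟫| (|t₀| |sg| + η + |z₀|)`.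
`t₀ = ⟪c'' - e0, w⟫`, `z₀ = ⟪c'' - e0, u⟫` (orthonormality), so
`|t₀|, |z₀| ≤ ‖c'' - e0‖ ≤ ‖c'' - c‖ + ‖c - e0‖ ≤ ρ/2 + R ≤ 3R/2` (`ρ ≤ R` because
`c + ρ • u ∈ K ⊆ closedBall c R`; `e0 ∈ closedBall c R`).  So
`|t₀| |sg| + η + |z₀| ≤ (3R/2)|sg| + R + 3R/2 ≤ 3R (1 + |sg|)` and
`|⟪ξ, u⟫| ≥ ρ / (6R(1 + |sg|))` (`R > 0`).
-/

open Set

namespace Vale.Agent.H5.GenK

variable {E : Type*} [NormedAddCommGroup E] [InnerProductSpace ℝ E]

theorem normal_lower {K : Set E} {c e0 w u ξ : E} {ρ R η sg : ℝ} (hρ : 0 < ρ)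
    (hη0 : 0 ≤ η) (hη : η ≤ R) (hin : Metric.closedBall c ρ ⊆ K)
    (hout : K ⊆ Metric.closedBall c R) (he0 : e0 ∈ K)
    (hw : ‖w‖ = 1) (hu : ‖u‖ = 1) (hwu : inner ℝ w u = 0)
    (hξ : ‖ξ‖ = 1) (hξl : inner ℝ ξ (w + sg • u) = 0)
    (hξK : ∀ y ∈ K, inner ℝ ξ (y - (e0 + η • u)) ≤ 0)
    (hnear : ∃ t z : ℝ, ‖e0 + t • w + z • u - c‖ ≤ ρ / 2) :
    ρ / (6 * R * (1 + |sg|)) ≤ |inner ℝ ξ u| := by
  obtain ⟨t₀, z₀, hc⟩ := hnear
  have hρR : ρ ≤ R := by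
    have h1 : c + ρ • u ∈ Metric.closedBall c ρ := by
      rw [Metric.mem_closedBall, dist_eq_norm, add_sub_cancel_left, norm_smul, hu,
        Real.norm_eq_abs, abs_of_pos hρ, mul_one]
    have h2 := hout (hin h1)
    rw [Metric.mem_closedBall, dist_eq_norm, add_sub_cancel_left, norm_smul, hu,
      Real.norm_eq_abs, abs_of_pos hρ, mul_one] at h2
    exact h2
  have hR : 0 < R := lt_of_lt_of_le hρ hρR
  have hy : c + ρ • ξ ∈ K := by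
    apply hin
    rw [Metric.mem_closedBall, dist_eq_norm, add_sub_cancel_left, norm_smul, hξ,
      Real.norm_eq_abs, abs_of_pos hρ, mul_one]
  have h3 := hξK _ hy
  have hξξ : inner ℝ ξ ξ = 1 := by
    rw [real_inner_self_eq_norm_sq, hξ]
    norm_num
  have hww : inner ℝ w w = 1 := by
    rw [real_inner_self_eq_norm_sq, hw]
    norm_num
  have huu : inner ℝ u u = 1 := by
    rw [real_inner_self_eq_norm_sq, hu]
    norm_num
  have huw : inner ℝ u w = 0 := by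
    rw [real_inner_comm]
    exact hwu
  have hξw : inner ℝ ξ w = -sg * inner ℝ ξ u := by
    rw [inner_add_right, inner_smul_right] at hξl
    linarith
  have h4 : inner ℝ ξ (e0 + t₀ • w + z₀ • u - c) ≤ ρ / 2 := by
    calc inner ℝ ξ (e0 + t₀ • w + z₀ • u - c)
        ≤ ‖ξ‖ * ‖e0 + t₀ • w + z₀ • u - c‖ := real_inner_le_norm _ _
      _ ≤ ρ / 2 := by
          rw [hξ, one_mul]
          exact hc
  simp only [inner_add_right, inner_sub_right, inner_smul_right] at h3 h4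
  rw [hξξ] at h3
  rw [hξw] at h4
  have h6 : ρ / 2 ≤ inner ℝ ξ u * (t₀ * sg + η + -z₀) := by
    nlinarith [h3, h4]
  -- bounds for t₀, z₀
  have hdiff : e0 + t₀ • w + z₀ • u - e0 = t₀ • w + z₀ • u := by
    module
  have hcc : ‖t₀ • w + z₀ • u‖ ≤ 3 * R / 2 := by
    have h7 : ‖e0 + t₀ • w + z₀ • u - e0‖ ≤ ‖e0 + t₀ • w + z₀ • u - c‖ + ‖c - e0‖ :=
      norm_sub_le_norm_sub_add_norm_sub _ _ _
    have h8 : ‖c - e0‖ ≤ R := by
      have := hout he0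
      rw [Metric.mem_closedBall, dist_comm, dist_eq_norm] at this
      exact this
    rw [hdiff] at h7
    linarith
  have ht : |t₀| ≤ 3 * R / 2 := by
    have h9 : inner ℝ (t₀ • w + z₀ • u) w = t₀ := by
      rw [inner_add_left, inner_smul_left, inner_smul_left, hww, huw]
      simp
    have h10 := abs_real_inner_le_norm (t₀ • w + z₀ • u) w
    rw [h9, hw, mul_one] at h10
    linarith
  have hz : |z₀| ≤ 3 * R / 2 := by
    have h9 : inner ℝ (t₀ • w + z₀ • u) u = z₀ := by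
      rw [inner_add_left, inner_smul_left, inner_smul_left, huu, hwu]
      simp
    have h10 := abs_real_inner_le_norm (t₀ • w + z₀ • u) u
    rw [h9, hu, mul_one] at h10
    linarith
  have hM : |t₀ * sg + η + -z₀| ≤ 3 * R * (1 + |sg|) := by
    have h11 := abs_add_three (t₀ * sg) η (-z₀)
    rw [abs_mul, abs_neg, abs_of_nonneg hη0] at h11
    have h12 : |t₀| * |sg| ≤ 3 * R / 2 * |sg| := mul_le_mul_of_nonneg_right ht (abs_nonneg sg)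
    have h13 := abs_nonneg sg
    nlinarith
  have h14 : inner ℝ ξ u * (t₀ * sg + η + -z₀) ≤ |inner ℝ ξ u| * (3 * R * (1 + |sg|)) := by
    calc inner ℝ ξ u * (t₀ * sg + η + -z₀) ≤ |inner ℝ ξ u * (t₀ * sg + η + -z₀)| := le_abs_self _
      _ = |inner ℝ ξ u| * |t₀ * sg + η + -z₀| := abs_mul _ _
      _ ≤ |inner ℝ ξ u| * (3 * R * (1 + |sg|)) := mul_le_mul_of_nonneg_left hM (abs_nonneg _)
  have hpos : 0 < 6 * R * (1 + |sg|) := by
    have := abs_nonneg sg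
    positivity
  rw [div_le_iff₀ hpos]
  linarith

end Vale.Agent.H5.GenK
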