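import Mathlib

/-!
# GK-26 (`gk_numerics`): the constants of LEMMA F

With `q = ρ/R ∈ (0, 1]`, `δ = q^15/10^24`, `η = 96 δ R^3/ρ^2`, `s = q^5/14112`,
`d0 = √(2ρη)`, `κ = q^8/3511517184000`:

* `δ ≤ ρ^2/(96R^2) = q^2/96` and `δ ≤ 1`: `q^15 ≤ q^2 ≤ 1`.
* `d0^2 = 2ρη = 192 δ R^3/ρ` (`Real.sq_sqrt`), and `d0 ≤ ρ` iff `192 δ R^3/ρ ≤ ρ^2` iff
  `δ ≤ q^3/192` (`Real.sqrt_le_left`/`Real.sqrt_le_sqrt` + `Real.sqrt_sq`).
* `2Rδ ≤ κ d0`: both sides are `≥ 0`, compare squares (`abs_le_abs`/`pow_le_pow_left` +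
  `Real.sq_sqrt`): `4R^2δ^2 ≤ κ^2 · 192 δ R^3/ρ` iff `δ ≤ 48 κ^2/q = 48 q^15/3511517184000^2`,
  true since `3511517184000^2/48 < 2.6 * 10^23 < 10^24`.
* `κ · 432000 η/(sρ) = κ · 432000 · 96 · 14112 · δ/q^8 = κ · 585252864000 δ/q^8 = δ/6`
  (`3511517184000 = 6 · 585252864000`).
It may help to substitute `ρ = q R` (`R > 0`) first, so that everything is a statement about
`q ∈ (0,1]` and `R > 0`.
-/

namespace Vale.Agent.H5.GenK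

/-- powers of `q ∈ (0,1]` are at most one and decrease -/
private theorem gkn_pow_le {q : ℝ} (hq0 : 0 < q) (hq1 : q ≤ 1) (m n : ℕ) (hmn : m ≤ n) :
    q ^ n ≤ q ^ m := pow_le_pow_of_le_one hq0.le hq1 hmn

theorem gk_numerics {ρ R q δ η s d0 κ : ℝ} (hρ : 0 < ρ) (hρR : ρ ≤ R) (hq : q = ρ / R)
    (hδ : δ = q ^ 15 / 10 ^ 24) (hη : η = 96 * δ * R ^ 3 / ρ ^ 2) (hs : s = q ^ 5 / 14112)
    (hd0 : d0 = √(2 * ρ * η)) (hκ : κ = q ^ 8 / 3511517184000) :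
    0 < δ ∧ δ ≤ ρ ^ 2 / (96 * R ^ 2) ∧ δ ≤ 1 ∧ 0 < η ∧ 0 < s ∧ 0 < d0 ∧ d0 ≤ ρ ∧
      d0 ^ 2 = 2 * ρ * η ∧ 0 ≤ κ ∧ κ ≤ 1 ∧ 2 * R * δ ≤ κ * d0 ∧
      κ * (432000 * η / (s * ρ)) ≤ δ / 6 := by
  have hR : 0 < R := lt_of_lt_of_le hρ hρR
  have hq0 : 0 < q := by rw [hq]; exact div_pos hρ hR
  have hq1 : q ≤ 1 := by rw [hq]; exact (div_le_one hR).mpr hρR
  have hρq : ρ = q * R := by rw [hq]; field_simp
  have hq15 : 0 < q ^ 15 := pow_pos hq0 15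
  have hq2 : q ^ 15 ≤ q ^ 2 := gkn_pow_le hq0 hq1 2 15 (by norm_num)
  have hq3 : q ^ 15 ≤ q ^ 3 := gkn_pow_le hq0 hq1 3 15 (by norm_num)
  have hq8 : q ^ 8 ≤ 1 := pow_le_one₀ hq0.le hq1
  have hq15' : q ^ 15 ≤ 1 := pow_le_one₀ hq0.le hq1
  have hδ0 : 0 < δ := by rw [hδ]; positivity
  have hη0 : 0 < η := by rw [hη]; positivity
  have hs0 : 0 < s := by rw [hs]; positivity
  have hκ0 : 0 < κ := by rw [hκ]; positivity
  have h2 : 0 < 2 * ρ * η := by positivity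
  have hd0pos : 0 < d0 := by rw [hd0]; exact Real.sqrt_pos.mpr h2
  have hd0sq : d0 ^ 2 = 2 * ρ * η := by rw [hd0]; exact Real.sq_sqrt h2.le
  -- the value of `2 ρ η` in terms of `q` and `R`
  have hval : 2 * ρ * η = 192 * (q ^ 14 / 10 ^ 24) * R ^ 2 := by
    rw [hη, hδ, hρq]; field_simp; norm_num
  have hq14 : 0 < q ^ 14 := pow_pos hq0 14
  have hq14' : q ^ 14 ≤ q ^ 2 := gkn_pow_le hq0 hq1 2 14 (by norm_num)
  refine ⟨hδ0, ?_, ?_, hη0, hs0, hd0pos, ?_, hd0sq, hκ0.le, ?_, ?_, ?_⟩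
  · -- δ ≤ ρ^2/(96 R^2) = q^2/96
    have : ρ ^ 2 / (96 * R ^ 2) = q ^ 2 / 96 := by rw [hρq]; field_simp
    rw [this, hδ]
    have h0 : 0 ≤ q ^ 2 := by positivity
    rw [div_le_div_iff₀ (by norm_num) (by norm_num)]
    nlinarith
  · rw [hδ]
    rw [div_le_one (by norm_num)]
    linarith
  · -- d0 ≤ ρ
    have hsq : d0 ^ 2 ≤ ρ ^ 2 := by
      rw [hd0sq, hval, hρq]
      have hR2 : 0 < R ^ 2 := by positivity
      have : 192 * (q ^ 14 / 10 ^ 24) ≤ q ^ 2 := by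
        rw [show (192 : ℝ) * (q ^ 14 / 10 ^ 24) = q ^ 14 * (192 / 10 ^ 24) by ring]
        have : (192 : ℝ) / 10 ^ 24 ≤ 1 := by norm_num
        nlinarith
      nlinarith
    exact (pow_le_pow_iff_left₀ hd0pos.le hρ.le (by norm_num)).mp hsq
  · rw [hκ, div_le_one (by norm_num)]
    linarith
  · -- 2 R δ ≤ κ d0 : compare squares
    have hsq : (2 * R * δ) ^ 2 ≤ (κ * d0) ^ 2 := by
      rw [mul_pow κ d0, hd0sq, hval, hδ, hκ]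
      have hR2 : 0 < R ^ 2 := by positivity
      have hq30 : 0 < q ^ 30 := pow_pos hq0 30
      have e1 : (2 * R * (q ^ 15 / 10 ^ 24)) ^ 2 = q ^ 30 * R ^ 2 * (4 / 10 ^ 48) := by ring
      have e2 : (q ^ 8 / 3511517184000) ^ 2 * (192 * (q ^ 14 / 10 ^ 24) * R ^ 2)
          = q ^ 30 * R ^ 2 * (192 / (3511517184000 ^ 2 * 10 ^ 24)) := by ring
      rw [e1, e2]
      apply mul_le_mul_of_nonneg_left _ (by positivity)
      norm_num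
    exact (pow_le_pow_iff_left₀ (by positivity) (by positivity) (by norm_num)).mp hsq
  · -- equality
    apply le_of_eq
    rw [hκ, hη, hs, hδ, hρq]
    field_simp
    ring

end Vale.Agent.H5.GenK
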