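import Mathlib

/-!
# GK-9 (`planar_lemma`): the planar lemma (pure convexity in `ℝ × ℝ`)

`A ⊆ ℝ × ℝ` convex (a planar section of the body: `p.1` = abscissa along the good ray, `p.2` =
height along the chord direction).  The vertical chord over `0` is exactly `[0, L]` (`h00`, `h0L`,
`hfull`), `(r, zr) ∈ A` is a point over the exit abscissa `r > 0` (`hexit`: nothing beyond `r`).
`H1`: over `t ∈ [0, r]` all vertical chords are `≤ L (1 - t/r) + η/2`; `H2`: all vertical chords
are `≤ L + η/2`; `0 < η ≤ L`.  Put `a := (zr - L)/r`, `c := zr/r`, `D := (L - η/2)/(2r) > 0`.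
Then either all of `A` lies below both lines `z = L + η + a t` and `z = L + η + (a + D) t`, or all
of `A` lies above both lines `z = -η + c t` and `z = -η + (c - D) t`.

Proof.  (1) For every `(t, z) ∈ A`: `z ≤ L + a t + η/2` and `z ≥ c t - η/2`; for `t < 0` even
`z ≤ L + a t` and `z ≥ c t`.
 * `0 ≤ t ≤ r`: `(t, c t) ∈ A` (segment from `(0,0)` to `(r, zr)`, weight `t/r`), so by `H1`
   `z - c t ≤ L (1 - t/r) + η/2`, i.e. `z ≤ L + a t + η/2`; `(t, L + a t) ∈ A` (segment from
   `(0, L)` to `(r, zr)`), so `L + a t - z ≤ L (1 - t/r) + η/2`, i.e. `z ≥ c t - η/2`.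
 * `t < 0`: the segment from `(t, z)` to `(r, zr)` meets the axis at height
   `(z r - zr t)/(r - t)` (weights `r/(r - t)` and `-t/(r - t)`), which is in `[0, L]` by
   `hfull`; so `z r - zr t ≤ L (r - t)`, i.e. `z ≤ L + a t`, and `z r - zr t ≥ 0`, i.e.
   `z ≥ c t` (divide by `r > 0`).
 * `t > r` is excluded by `hexit`.
 In particular the first inequality of each alternative holds for all points (`η/2 ≤ η`).
(2) Suppose both second inequalities fail: `(t₁, z₁), (t₂, z₂) ∈ A` with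
`z₁ > L + η + (a + D) t₁` and `z₂ < -η + (c - D) t₂`.  By (1) `t₁ ≥ 0` would give
`η/2 + D t₁ < 0`, impossible; so `t₁ < 0`, likewise `t₂ < 0`.  `s₁ := -t₁`, `s₂ := -t₂`,
`σ := min s₁ s₂ > 0`.  The points `(-σ, L + (σ/s₁)(z₁ - L))` (segment `(0, L)`–`(t₁, z₁)`) and
`(-σ, (σ/s₂) z₂)` (segment `(0,0)`–`(t₂, z₂)`) are in `A` and their heights differ by more than
`L + η (σ/s₁ + σ/s₂) + σ (c - a - 2D) ≥ L + η`, because `σ/s₁ + σ/s₂ ≥ 1` and
`c - a - 2D = L/r - (L - η/2)/r = η/(2r) > 0`.  This contradicts `H2`.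
-/

open Set

namespace Vale.Agent.H5.GenK

theorem planar_lemma {A : Set (ℝ × ℝ)} (hA : Convex ℝ A) {L η r zr : ℝ}
    (hL : 0 < L) (hη0 : 0 < η) (hηL : η ≤ L) (hr : 0 < r)
    (h00 : ((0 : ℝ), (0 : ℝ)) ∈ A) (h0L : ((0 : ℝ), L) ∈ A)
    (hfull : ∀ z : ℝ, ((0 : ℝ), z) ∈ A → 0 ≤ z ∧ z ≤ L)
    (hzr : (r, zr) ∈ A) (hexit : ∀ p ∈ A, p.1 ≤ r)
    (H1 : ∀ t z z' : ℝ, 0 ≤ t → t ≤ r → (t, z) ∈ A → (t, z') ∈ A →
      z' - z ≤ L * (1 - t / r) + η / 2)
    (H2 : ∀ t z z' : ℝ, (t, z) ∈ A → (t, z') ∈ A → z' - z ≤ L + η / 2) :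
    (∀ p ∈ A, p.2 ≤ L + η + (zr - L) / r * p.1 ∧
        p.2 ≤ L + η + ((zr - L) / r + (L - η / 2) / (2 * r)) * p.1) ∨
      (∀ p ∈ A, -η + zr / r * p.1 ≤ p.2 ∧
        -η + (zr / r - (L - η / 2) / (2 * r)) * p.1 ≤ p.2) := by
  obtain ⟨a, ha⟩ : ∃ a : ℝ, a = (zr - L) / r := ⟨_, rfl⟩
  obtain ⟨c, hc⟩ : ∃ c : ℝ, c = zr / r := ⟨_, rfl⟩
  obtain ⟨D, hD⟩ : ∃ D : ℝ, D = (L - η / 2) / (2 * r) := ⟨_, rfl⟩
  rw [← ha, ← hc, ← hD]
  have hr0 : r ≠ 0 := hr.ne'
  have har : a * r = zr - L := by rw [ha]; field_simp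
  have hcr : c * r = zr := by rw [hc]; field_simp
  have hDr : D * (2 * r) = L - η / 2 := by rw [hD]; field_simp
  have hD0 : 0 < D := by
    rw [hD]
    exact div_pos (by linarith) (by linarith)
  have her : (c - a - 2 * D) * r = η / 2 := by linear_combination hcr - har - hDr
  have he : 0 < c - a - 2 * D := by
    by_contra h
    have h' := mul_nonneg (sub_nonneg.mpr (not_lt.mp h)) hr.le
    linarith
  -- step (1), nonnegative abscissa
  have S1 : ∀ t z : ℝ, (t, z) ∈ A → 0 ≤ t → z ≤ L + a * t + η / 2 ∧ c * t - η / 2 ≤ z := by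
    intro t z hz ht0
    have htr : t ≤ r := hexit (t, z) hz
    obtain ⟨w, hw⟩ : ∃ w : ℝ, w = t / r := ⟨_, rfl⟩
    have hw0 : 0 ≤ w := by rw [hw]; exact div_nonneg ht0 hr.le
    have hw1 : w ≤ 1 := by rw [hw]; exact div_le_one_of_le₀ htr hr.le
    have hwr : w * r = t := by rw [hw]; field_simp
    have hct : c * t = w * zr := by linear_combination w * hcr - c * hwr
    have hat : a * t = w * zr - w * L := by linear_combination w * har - a * hwr
    have hP1 : (t, c * t) ∈ A := by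
      have e : (1 - w) • ((0 : ℝ), (0 : ℝ)) + w • (r, zr) = (t, c * t) := by
        simp only [Prod.smul_mk, Prod.mk_add_mk, smul_eq_mul, Prod.mk.injEq]
        constructor
        · linarith
        · linarith
      rw [← e]
      exact hA h00 hzr (by linarith) hw0 (by ring)
    have hP2 : (t, L + a * t) ∈ A := by
      have e : (1 - w) • ((0 : ℝ), L) + w • (r, zr) = (t, L + a * t) := by
        simp only [Prod.smul_mk, Prod.mk_add_mk, smul_eq_mul, Prod.mk.injEq]
        constructor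
        · linarith
        · linarith
      rw [← e]
      exact hA h0L hzr (by linarith) hw0 (by ring)
    have h1 : z - c * t ≤ L * (1 - w) + η / 2 := by
      rw [hw]
      exact H1 t (c * t) z ht0 htr hP1 hz
    have h2 : L + a * t - z ≤ L * (1 - w) + η / 2 := by
      rw [hw]
      exact H1 t z (L + a * t) ht0 htr hz hP2
    constructor
    · linarith
    · linarith
  -- step (1), negative abscissa
  have S2 : ∀ t z : ℝ, (t, z) ∈ A → t < 0 → z ≤ L + a * t ∧ c * t ≤ z := by
    intro t z hz ht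
    have hrt : 0 < r - t := by linarith
    obtain ⟨u, hu⟩ : ∃ u : ℝ, u = r / (r - t) := ⟨_, rfl⟩
    have hu0 : 0 ≤ u := by rw [hu]; exact div_nonneg hr.le hrt.le
    have hu1 : u ≤ 1 := by rw [hu]; exact div_le_one_of_le₀ (by linarith) hrt.le
    have hur : u * (r - t) = r := by rw [hu]; field_simp
    have hP : ((0 : ℝ), u * z + (1 - u) * zr) ∈ A := by
      have e : u • (t, z) + (1 - u) • (r, zr) = ((0 : ℝ), u * z + (1 - u) * zr) := by
        simp only [Prod.smul_mk, Prod.mk_add_mk, smul_eq_mul, Prod.mk.injEq]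
        constructor
        · linarith
        · trivial
      rw [← e]
      exact hA hz hzr hu0 (by linarith) (by ring)
    obtain ⟨hlo, hhi⟩ := hfull _ hP
    have key : (u * z + (1 - u) * zr) * (r - t) = r * z - t * zr := by
      linear_combination (z - zr) * hur
    have h1 : r * z - t * zr ≤ L * (r - t) := by
      rw [← key]
      exact mul_le_mul_of_nonneg_right hhi hrt.le
    have h2 : 0 ≤ r * z - t * zr := by
      rw [← key]
      exact mul_nonneg hlo hrt.le
    constructor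
    · have e : r * (L + a * t) = r * L + (zr - L) * t := by linear_combination t * har
      have h3 : r * z ≤ r * (L + a * t) := by
        rw [e]
        linarith
      exact le_of_mul_le_mul_left h3 hr
    · have e : r * (c * t) = zr * t := by linear_combination t * hcr
      have h3 : r * (c * t) ≤ r * z := by
        rw [e]
        linarith
      exact le_of_mul_le_mul_left h3 hr
  -- the first inequality of each alternative holds for all points
  have S3 : ∀ p ∈ A, p.2 ≤ L + η + a * p.1 ∧ -η + c * p.1 ≤ p.2 := by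
    rintro ⟨t, z⟩ hp
    rcases lt_or_ge t 0 with ht | ht
    · obtain ⟨h1, h2⟩ := S2 t z hp ht
      exact ⟨by linarith, by linarith⟩
    · obtain ⟨h1, h2⟩ := S1 t z hp ht
      exact ⟨by linarith, by linarith⟩
  by_cases hU : ∀ p ∈ A, p.2 ≤ L + η + (a + D) * p.1
  · left
    exact fun p hp => ⟨(S3 p hp).1, hU p hp⟩
  by_cases hV : ∀ p ∈ A, -η + (c - D) * p.1 ≤ p.2
  · right
    exact fun p hp => ⟨(S3 p hp).2, hV p hp⟩
  exfalso
  obtain ⟨⟨t1, z1⟩, hp1, hlt1⟩ : ∃ p ∈ A, L + η + (a + D) * p.1 < p.2 := by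
    by_contra h
    exact hU (fun p hp => not_lt.mp (fun hlt => h ⟨p, hp, hlt⟩))
  obtain ⟨⟨t2, z2⟩, hp2, hlt2⟩ : ∃ p ∈ A, p.2 < -η + (c - D) * p.1 := by
    by_contra h
    exact hV (fun p hp => not_lt.mp (fun hlt => h ⟨p, hp, hlt⟩))
  have hlt1' : L + η + (a + D) * t1 < z1 := hlt1
  have hlt2' : z2 < -η + (c - D) * t2 := hlt2
  have ht1 : t1 < 0 := by
    by_contra h
    have h1 := (S1 t1 z1 hp1 (not_lt.mp h)).1
    have h2 := mul_nonneg hD0.le (not_lt.mp h)
    linarith
  have ht2 : t2 < 0 := by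
    by_contra h
    have h1 := (S1 t2 z2 hp2 (not_lt.mp h)).2
    have h2 := mul_nonneg hD0.le (not_lt.mp h)
    linarith
  rcases le_total t2 t1 with hle | hle
  · -- `t2 ≤ t1 < 0`
    obtain ⟨w, hw⟩ : ∃ w : ℝ, w = t1 / t2 := ⟨_, rfl⟩
    have hw0 : 0 < w := by rw [hw]; exact div_pos_of_neg_of_neg ht1 ht2
    have hwt : w * t2 = t1 := by rw [hw]; exact div_mul_cancel₀ t1 ht2.ne
    have hw1 : w ≤ 1 := by
      by_contra h
      have h' := mul_lt_mul_of_neg_right (not_le.mp h) ht2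
      linarith
    have hP : (t1, w * z2) ∈ A := by
      have e : (1 - w) • ((0 : ℝ), (0 : ℝ)) + w • (t2, z2) = (t1, w * z2) := by
        simp only [Prod.smul_mk, Prod.mk_add_mk, smul_eq_mul, Prod.mk.injEq]
        constructor
        · linarith
        · linarith
      rw [← e]
      exact hA h00 hp2 (by linarith) hw0.le (by ring)
    have h := H2 t1 (w * z2) z1 hP hp1
    have h3 : w * z2 < w * (-η + (c - D) * t2) := mul_lt_mul_of_pos_left hlt2' hw0
    have h4 : w * (-η + (c - D) * t2) = -(w * η) + (c - D) * t1 := by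
      linear_combination (c - D) * hwt
    have h5 : (c - a - 2 * D) * t1 < 0 := mul_neg_of_pos_of_neg he ht1
    have h6 : 0 < w * η := mul_pos hw0 hη0
    linarith
  · -- `t1 ≤ t2 < 0`
    obtain ⟨w, hw⟩ : ∃ w : ℝ, w = t2 / t1 := ⟨_, rfl⟩
    have hw0 : 0 < w := by rw [hw]; exact div_pos_of_neg_of_neg ht2 ht1
    have hwt : w * t1 = t2 := by rw [hw]; exact div_mul_cancel₀ t2 ht1.ne
    have hw1 : w ≤ 1 := by
      by_contra h
      have h' := mul_lt_mul_of_neg_right (not_le.mp h) ht1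
      linarith
    have hP : (t2, (1 - w) * L + w * z1) ∈ A := by
      have e : (1 - w) • ((0 : ℝ), L) + w • (t1, z1) = (t2, (1 - w) * L + w * z1) := by
        simp only [Prod.smul_mk, Prod.mk_add_mk, smul_eq_mul, Prod.mk.injEq]
        constructor
        · linarith
        · trivial
      rw [← e]
      exact hA h0L hp1 (by linarith) hw0.le (by ring)
    have h := H2 t2 z2 ((1 - w) * L + w * z1) hp2 hP
    have h3 : w * (L + η + (a + D) * t1) < w * z1 := mul_lt_mul_of_pos_left hlt1' hw0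
    have h4 : w * (L + η + (a + D) * t1) = w * L + w * η + (a + D) * t2 := by
      linear_combination (a + D) * hwt
    have h5 : (c - a - 2 * D) * t2 < 0 := mul_neg_of_pos_of_neg he ht2
    have h6 : 0 < w * η := mul_pos hw0 hη0
    linarith

end Vale.Agent.H5.GenK
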