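import Vale.Agent.H76.Lev

/-!
# GK-1 (`ray_concave`): concavity of the chord length along a ray

`T ⊆ X × ℝ` convex, `Lev T r` = base points over which the fibre of `T` has a chord `≥ r`
(`Vale.Agent.H76.Lev`).  Let `p ∈ Lev T L` (chord `≥ L` over `p`), `y` in the shadow
`Prod.fst '' T` (`= Lev T 0`, see `Lev_of_nonpos`), and suppose that over the point
`p + ty • (y - p)` (`0 ≤ ty ≤ 1`) the chord is `≥ L (1 - ty) + m` with `m ≥ 0`.  Then for every
`t ∈ [0, 1/2]` the chord over `p + t • (y - p)` is `≥ L - (L - m) t`.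

Proof.  Case `t ≤ ty`, `ty > 0`: `p + t(y-p) = (1 - t/ty) • p + (t/ty) • (p + ty(y-p))`, so by
`Lev_combo` the chord is `≥ (1 - t/ty) L + (t/ty)(L(1-ty) + m) = L - tL + (t/ty) m ≥ L - tL + t m`
(`t/ty ≥ t` because `ty ≤ 1`); then `Lev_anti`.  Case `t = ty = 0`: `hp` and `Lev_anti`.
Case `ty < t` (so `ty < 1`): `p + t(y-p) = ((1-t)/(1-ty)) • (p + ty(y-p)) + ((t-ty)/(1-ty)) • y`,
chord `≥ ((1-t)/(1-ty)) (L(1-ty) + m) + 0 = L(1-t) + m (1-t)/(1-ty) ≥ L(1-t) + m(1-t)
≥ L(1-t) + m t` (`1 - t ≥ t`).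
-/

open Set
open scoped Pointwise

namespace Vale.Agent.H5.GenK

open Vale.Agent.H76

variable {X : Type*} [NormedAddCommGroup X] [NormedSpace ℝ X]

theorem ray_concave {T : Set (X × ℝ)} (hTc : Convex ℝ T) {p y : X} {L m ty : ℝ}
    (hm0 : 0 ≤ m) (hp : p ∈ Lev T L) (hy : y ∈ Prod.fst '' T) (hty0 : 0 ≤ ty) (hty1 : ty ≤ 1)
    (hbad : p + ty • (y - p) ∈ Lev T (L * (1 - ty) + m))
    {t : ℝ} (ht0 : 0 ≤ t) (ht : t ≤ 1 / 2) :
    p + t • (y - p) ∈ Lev T (L - (L - m) * t) := by
  have hy0 : y ∈ Lev T 0 := by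
    rw [Lev_of_nonpos T le_rfl]
    exact hy
  rcases le_or_gt t ty with htle | htgt
  · rcases eq_or_lt_of_le hty0 with h0 | hpos
    · have ht00 : t = 0 := le_antisymm (htle.trans h0.ge) ht0
      rw [ht00, zero_smul, add_zero, mul_zero, sub_zero]
      exact hp
    · obtain ⟨b, hb⟩ : ∃ b : ℝ, b = t / ty := ⟨_, rfl⟩
      have hbt : b * ty = t := by
        rw [hb]
        exact div_mul_cancel₀ t hpos.ne'
      have hb0 : 0 ≤ b := by
        rw [hb]
        exact div_nonneg ht0 hpos.le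
      have hb1 : b ≤ 1 := by
        rw [hb]
        exact (div_le_one hpos).2 htle
      have htb : t ≤ b := by
        calc t = b * ty := hbt.symm
          _ ≤ b * 1 := mul_le_mul_of_nonneg_left hty1 hb0
          _ = b := mul_one b
      have hmem := Lev_combo hTc (sub_nonneg.2 hb1) hb0 (by ring : (1 - b) + b = 1) L
        (L * (1 - ty) + m) (Set.add_mem_add (Set.smul_mem_smul_set hp)
          (Set.smul_mem_smul_set hbad))
      have e : p + t • (y - p) = (1 - b) • p + b • (p + ty • (y - p)) := by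
        rw [← hbt]
        module
      rw [e]
      refine Lev_anti T ?_ hmem
      have e2 : (1 - b) * L + b * (L * (1 - ty) + m) = L - t * L + b * m := by
        rw [← hbt]
        ring
      rw [e2]
      nlinarith [mul_le_mul_of_nonneg_right htb hm0]
  · have h1ty : 0 < 1 - ty := by linarith
    obtain ⟨a, ha⟩ : ∃ a : ℝ, a = (1 - t) / (1 - ty) := ⟨_, rfl⟩
    have hat : a * (1 - ty) = 1 - t := by
      rw [ha]
      exact div_mul_cancel₀ _ h1ty.ne'
    have ha0 : 0 ≤ a := by
      rw [ha]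
      exact div_nonneg (by linarith) h1ty.le
    have ha1 : a ≤ 1 := by
      rw [ha]
      exact (div_le_one h1ty).2 (by linarith)
    have hta : 1 - t ≤ a := by
      calc 1 - t = a * (1 - ty) := hat.symm
        _ ≤ a * 1 := mul_le_mul_of_nonneg_left (by linarith) ha0
        _ = a := mul_one a
    have hmem := Lev_combo hTc ha0 (sub_nonneg.2 ha1) (by ring : a + (1 - a) = 1)
      (L * (1 - ty) + m) 0 (Set.add_mem_add (Set.smul_mem_smul_set hbad)
        (Set.smul_mem_smul_set hy0))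
    have e : p + t • (y - p) = a • (p + ty • (y - p)) + (1 - a) • y := by
      have ht' : t = 1 - a * (1 - ty) := by linarith
      rw [ht']
      module
    rw [e]
    refine Lev_anti T ?_ hmem
    have e2 : a * (L * (1 - ty) + m) + (1 - a) * 0 = L * (1 - t) + a * m := by
      rw [← hat]
      ring
    rw [e2]
    nlinarith [mul_le_mul_of_nonneg_right hta hm0, mul_nonneg hm0 (by linarith : 0 ≤ 1 - 2 * t)]

end Vale.Agent.H5.GenK
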