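import Mathlib

/-!
# GK-10 (`support_line`): a supporting plane through a line above a planar section (Hahn–Banach)

`K` closed convex with non-empty interior.  Suppose every point of `K` in the plane
`e0 + ℝ w + ℝ u` lies on or below the line `z = η + sg * t` (coordinates `t` along `w`, `z` along
`u`).  Then there is a unit vector `ξ` orthogonal to the direction `w + sg • u` of that line with
`K` inside the half-space `⟪ξ, y - (e0 + η • u)⟫ ≤ 0`.

Proof.  The line `l := {e0 + η • u + t • (w + sg • u) | t : ℝ}` (convex) is disjoint from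
`interior K` (open, convex, non-empty): if `x = e0 + t • w + (η + sg t) • u ∈ interior K` then
`x + ε • u ∈ K` for a small `ε > 0` (`x + ε • u → x`), and `hup` gives
`η + sg t + ε ≤ η + sg t`, absurd.  `geometric_hahn_banach_open` (or `_open_point` style
variants): `f : E →L[ℝ] ℝ` and `α` with `f a < α` on `interior K` and `α ≤ f b` on `l`.
`f` is bounded below on the line, so `f (w + sg • u) = 0` (if it were `≠ 0` take `t → ∓∞`); hence
`α ≤ f (e0 + η • u)`.  `f ≠ 0` (it separates a non-empty set strictly from `α`).  For `y ∈ K`: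
`K ⊆ closure (interior K)` (`Convex.closure_interior_eq_closure_of_nonempty_interior`), so
`f y ≤ α ≤ f (e0 + η • u)` by continuity.  Let `v := (InnerProductSpace.toDual ℝ E).symm f ≠ 0`
(`E` is complete: `FiniteDimensional.complete ℝ E`), `ξ := ‖v‖⁻¹ • v`; `f x = ⟪v, x⟫`.
-/

open Set

namespace Vale.Agent.H5.GenK

variable {E : Type*} [NormedAddCommGroup E] [InnerProductSpace ℝ E] [FiniteDimensional ℝ E]

theorem support_line {K : Set E} (hKc : Convex ℝ K) (hKcl : IsClosed K)
    (hint : (interior K).Nonempty) {e0 w u : E} {η sg : ℝ}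
    (hup : ∀ t z : ℝ, e0 + t • w + z • u ∈ K → z ≤ η + sg * t) :
    ∃ ξ : E, ‖ξ‖ = 1 ∧ inner ℝ ξ (w + sg • u) = 0 ∧
      ∀ y ∈ K, inner ℝ ξ (y - (e0 + η • u)) ≤ 0 := by
  have : CompleteSpace E := FiniteDimensional.complete ℝ E
  set p : E := e0 + η • u with hp
  set d : E := w + sg • u with hd
  have hl : Convex ℝ (Set.range (fun t : ℝ => p + t • d)) := by
    rintro _ ⟨t1, rfl⟩ _ ⟨t2, rfl⟩ a b ha hb hab
    refine ⟨a * t1 + b * t2, ?_⟩
    have hb' : b = 1 - a := by linarith
    subst hb'
    simp only
    module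
  have hdisj : Disjoint (interior K) (Set.range (fun t : ℝ => p + t • d)) := by
    rw [Set.disjoint_left]
    rintro x hx ⟨t, rfl⟩
    have hcont : Continuous (fun ε : ℝ => p + t • d + ε • u) := by fun_prop
    have hmem : ∀ᶠ ε in nhds (0 : ℝ), p + t • d + ε • u ∈ interior K := by
      apply hcont.continuousAt.eventually_mem
      apply isOpen_interior.mem_nhds
      simpa using hx
    obtain ⟨ε, hε, hεK⟩ := hmem.exists_gt
    have hK : e0 + t • w + (η + sg * t + ε) • u ∈ K := by
      have h1 : p + t • d + ε • u = e0 + t • w + (η + sg * t + ε) • u := by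
        simp only [hp, hd]
        module
      rw [← h1]
      exact interior_subset hεK
    have h2 := hup t _ hK
    linarith
  obtain ⟨f, α, hf1, hf2⟩ := geometric_hahn_banach_open hKc.interior isOpen_interior hl hdisj
  have hline : ∀ t : ℝ, α ≤ f p + t * f d := by
    intro t
    have h1 := hf2 (p + t • d) ⟨t, rfl⟩
    simpa using h1
  have hfd : f d = 0 := by
    by_contra hne
    have h1 := hline ((α - 1 - f p) / f d)
    rw [div_mul_cancel₀ _ hne] at h1
    linarith
  have hαp : α ≤ f p := by simpa using hline 0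
  have hfK : ∀ y ∈ K, f y ≤ α := by
    intro y hy
    have hsub : closure (interior K) ⊆ {x | f x ≤ α} := by
      apply closure_minimal
      · intro x hx
        exact (hf1 x hx).le
      · exact isClosed_le f.continuous continuous_const
    apply hsub
    rw [hKc.closure_interior_eq_closure_of_nonempty_interior hint]
    exact subset_closure hy
  obtain ⟨a, ha⟩ := hint
  have hf0 : f ≠ 0 := by
    rintro rfl
    have h1 := hf1 a ha
    simp at h1 hαp
    linarith
  set v : E := (InnerProductSpace.toDual ℝ E).symm f with hv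
  have hvf : ∀ x, inner ℝ v x = f x := fun x => InnerProductSpace.toDual_symm_apply
  have hv0 : v ≠ 0 := by
    intro h0
    apply hf0
    ext x
    rw [← hvf x, h0]
    simp
  have hnv : 0 < ‖v‖ := norm_pos_iff.mpr hv0
  refine ⟨‖v‖⁻¹ • v, ?_, ?_, ?_⟩
  · rw [norm_smul, norm_inv, norm_norm, inv_mul_cancel₀ hnv.ne']
  · rw [real_inner_smul_left, hvf, hfd, mul_zero]
  · intro y hy
    rw [real_inner_smul_left, hvf, map_sub]
    have h1 := hfK y hy
    have hinv : 0 ≤ ‖v‖⁻¹ := inv_nonneg.mpr hnv.le
    nlinarith

end Vale.Agent.H5.GenK
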