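import Vale.Agent.H5.GenK.Defs
import Vale.Agent.H5.GenK.Support
import Vale.Agent.H5.GenK.Normal
import Vale.Agent.H5.GenK.Gram

/-!
# GK-13 (`sharp_of_two_slopes`): two lines of different slopes above a section give a sharp point
(STEP 3 of LEMMA S)

`K` closed convex, `closedBall c ρ ⊆ K ⊆ closedBall c R`, `e0 ∈ K`, `(w, u)` orthonormal, the plane
`e0 + ℝ w + ℝ u` passes within `ρ/2` of `c`, `0 ≤ η ≤ R`.  If the section of `K` by this plane lies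
below the two lines `z = η + sg₁ t` and `z = η + sg₂ t` with `|sg_i| ≤ M` and `|sg₁ - sg₂| ≥ D ≥ 0`,
then `e0` is `(η, s)`-sharp with `s = (ρ / (6 R (1 + M)))^2 D`.

Proof.  `interior K ≠ ∅` (`Metric.ball c ρ ⊆ interior K`).  `support_line` for `sg₁`, `sg₂` gives
unit `ξ₁, ξ₂` with `⟪ξ_i, w + sg_i • u⟫ = 0` and `⟪ξ_i, y - (e0 + η • u)⟫ ≤ 0` on `K`.
Caps: `⟪ξ_i, y - e0⟫ = ⟪ξ_i, y - (e0 + η • u)⟫ + η ⟪ξ_i, u⟫ ≤ η` (`|⟪ξ_i, u⟫| ≤ 1`, `η ≥ 0`).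
Angle: `y_i := ⟪ξ_i, u⟫`, `⟪ξ_i, w⟫ = -sg_i y_i`, so by `gram_lower`
`1 - ⟪ξ₁, ξ₂⟫^2 ≥ (⟪ξ₁,w⟫ y₂ - y₁ ⟪ξ₂,w⟫)^2 = (y₁ y₂ (sg₂ - sg₁))^2`, and by `normal_lower`
`|y_i| ≥ ρ/(6R(1 + |sg_i|)) ≥ ρ/(6R(1 + M)) ≥ 0` (`R > 0` since `ρ ≤ R`).  Hence
`1 - ⟪ξ₁, ξ₂⟫^2 ≥ ((ρ/(6R(1+M)))^2 D)^2`.
-/

open Set

namespace Vale.Agent.H5.GenK

variable {E : Type*} [NormedAddCommGroup E] [InnerProductSpace ℝ E] [FiniteDimensional ℝ E]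

theorem sharp_of_two_slopes {K : Set E} (hKc : Convex ℝ K) (hKcl : IsClosed K)
    {c e0 w u : E} {ρ R η sg₁ sg₂ M D : ℝ} (hρ : 0 < ρ) (hη0 : 0 ≤ η) (hη : η ≤ R)
    (hin : Metric.closedBall c ρ ⊆ K) (hout : K ⊆ Metric.closedBall c R) (he0 : e0 ∈ K)
    (hw : ‖w‖ = 1) (hu : ‖u‖ = 1) (hwu : inner ℝ w u = 0)
    (hup₁ : ∀ t z : ℝ, e0 + t • w + z • u ∈ K → z ≤ η + sg₁ * t)
    (hup₂ : ∀ t z : ℝ, e0 + t • w + z • u ∈ K → z ≤ η + sg₂ * t)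
    (hnear : ∃ t z : ℝ, ‖e0 + t • w + z • u - c‖ ≤ ρ / 2)
    (hM₁ : |sg₁| ≤ M) (hM₂ : |sg₂| ≤ M) (hD0 : 0 ≤ D) (hD : D ≤ |sg₁ - sg₂|) :
    Sharp K η ((ρ / (6 * R * (1 + M))) ^ 2 * D) e0 := by
  have hint : (interior K).Nonempty := by
    refine ⟨c, ?_⟩
    have hsub : Metric.ball c ρ ⊆ interior K :=
      interior_maximal (Metric.ball_subset_closedBall.trans hin) Metric.isOpen_ball
    exact hsub (Metric.mem_ball_self hρ)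
  obtain ⟨ξ₁, hξ₁, hl₁, hK₁⟩ := support_line hKc hKcl hint hup₁
  obtain ⟨ξ₂, hξ₂, hl₂, hK₂⟩ := support_line hKc hKcl hint hup₂
  have hn₁ := normal_lower hρ hη0 hη hin hout he0 hw hu hwu hξ₁ hl₁ hK₁ hnear
  have hn₂ := normal_lower hρ hη0 hη hin hout he0 hw hu hwu hξ₂ hl₂ hK₂ hnear
  have hg := gram_lower hw hu hwu hξ₁ hξ₂
  have hρR : ρ ≤ R := by
    have h1 : c + ρ • u ∈ Metric.closedBall c ρ := by
      rw [Metric.mem_closedBall, dist_eq_norm]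
      simp [norm_smul, hu, abs_of_pos hρ]
    have h2 := hout (hin h1)
    rw [Metric.mem_closedBall, dist_eq_norm] at h2
    simpa [norm_smul, hu, abs_of_pos hρ] using h2
  have hR : 0 < R := lt_of_lt_of_le hρ hρR
  have hM0 : 0 ≤ M := (abs_nonneg _).trans hM₁
  have hw₁ : inner ℝ ξ₁ w = - sg₁ * inner ℝ ξ₁ u := by
    rw [inner_add_right, inner_smul_right] at hl₁
    linarith
  have hw₂ : inner ℝ ξ₂ w = - sg₂ * inner ℝ ξ₂ u := by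
    rw [inner_add_right, inner_smul_right] at hl₂
    linarith
  have hu₁ : |inner ℝ ξ₁ u| ≤ 1 := by
    have h := abs_real_inner_le_norm ξ₁ u
    rwa [hξ₁, hu, mul_one] at h
  have hu₂ : |inner ℝ ξ₂ u| ≤ 1 := by
    have h := abs_real_inner_le_norm ξ₂ u
    rwa [hξ₂, hu, mul_one] at h
  have hq0 : 0 ≤ ρ / (6 * R * (1 + M)) := by positivity
  have hq₁ : ρ / (6 * R * (1 + M)) ≤ |inner ℝ ξ₁ u| := by
    refine le_trans ?_ hn₁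
    have hpos : 0 < 6 * R * (1 + |sg₁|) := by positivity
    exact div_le_div_of_nonneg_left hρ.le hpos (by gcongr)
  have hq₂ : ρ / (6 * R * (1 + M)) ≤ |inner ℝ ξ₂ u| := by
    refine le_trans ?_ hn₂
    have hpos : 0 < 6 * R * (1 + |sg₂|) := by positivity
    exact div_le_div_of_nonneg_left hρ.le hpos (by gcongr)
  have hminor : inner ℝ ξ₁ w * inner ℝ ξ₂ u - inner ℝ ξ₁ u * inner ℝ ξ₂ w
      = inner ℝ ξ₁ u * inner ℝ ξ₂ u * (sg₂ - sg₁) := by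
    rw [hw₁, hw₂]
    ring
  rw [hminor] at hg
  have hcap : ∀ ξ : E, |inner ℝ ξ u| ≤ 1 →
      (∀ y ∈ K, inner ℝ ξ (y - (e0 + η • u)) ≤ 0) → ∀ y ∈ K, inner ℝ ξ (y - e0) ≤ η := by
    intro ξ hξu hξK y hy
    have h := hξK y hy
    have hsplit : inner ℝ ξ (y - e0) = inner ℝ ξ (y - (e0 + η • u)) + η * inner ℝ ξ u := by
      rw [← inner_smul_right, ← inner_add_right]
      congr 1
      abel
    rw [hsplit]
    have h3 : η * inner ℝ ξ u ≤ η := by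
      have h4 := le_abs_self (inner ℝ ξ u)
      nlinarith
    linarith
  refine ⟨he0, ξ₁, ξ₂, hξ₁, hξ₂, ?_, hcap ξ₁ hu₁ hK₁, hcap ξ₂ hu₂ hK₂⟩
  have h1 : (ρ / (6 * R * (1 + M))) ^ 2 * D
      ≤ |inner ℝ ξ₁ u * inner ℝ ξ₂ u * (sg₂ - sg₁)| := by
    rw [abs_mul, abs_mul, abs_sub_comm sg₂ sg₁]
    calc (ρ / (6 * R * (1 + M))) ^ 2 * D
        = ρ / (6 * R * (1 + M)) * (ρ / (6 * R * (1 + M))) * D := by ring
      _ ≤ |inner ℝ ξ₁ u| * |inner ℝ ξ₂ u| * |sg₁ - sg₂| := by gcongr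
  calc ((ρ / (6 * R * (1 + M))) ^ 2 * D) ^ 2
      ≤ (inner ℝ ξ₁ u * inner ℝ ξ₂ u * (sg₂ - sg₁)) ^ 2 := by
        rw [← sq_abs (inner ℝ ξ₁ u * inner ℝ ξ₂ u * (sg₂ - sg₁))]
        exact pow_le_pow_left₀ (by positivity) h1 2
    _ ≤ 1 - (inner ℝ ξ₁ ξ₂) ^ 2 := hg

end Vale.Agent.H5.GenK
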